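import Vale.Agent.H66.CT.PeelRed

/-!
P328: the hook-peel induction with a constant (reduction only).

`PeelAtK κ` is the peeling inequality of `PeelRed.lean` with the hook term weighted by a
constant `κ` (`κ = 1` is `PeelAt`; in the language of the project thread `κ = 1 / C` for the
inequality `Φ_F(ψ) ≤ C SS_H(ψ) + Φ_F'(ψ)`).  `PeelHypK κ` asks, in every class with `n ≥ 3`
columns, no column of cap `0` and `0 < ρ + 1 < ∑ s`, for every pair of distinct columns and
every function of zero sum, for the inequality with the constant `κ n` in one of the two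
orders of the pair.  If `0 < κ n ≤ 1` and `κ` is nonincreasing, then the slack of every class
with `n` columns is at least `2 κ n` times the squared deviation from the mean, which gives
the Poincare inequality with the constant `δ / (m (m - 1) n (n - 1))`, `δ ≤ 2 κ m, 2 κ n`,
and the mixing time bound of the `2 x 2` heat-bath chain.  Unlike the case `κ = 1` the
induction runs pair by pair: along the chain of peeled classes of one pair it proves the bound
`2 κ (|f|^2 - slack of the pair) ≤ slack of the other pairs`, and the sum over all pairs gives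
the slack bound.
-/

namespace Vale.Agent.H66.CT

open Finset Vale.Agent.H90 Vale.Agent.H88.CT Vale.Agent.H91.CT Vale.Agent.H14.CT
  Vale.Agent.H2.CT

variable {n : ℕ}

/-- The peeling inequality with the constant `κ` for the class `Box n s (ρ + 1)`, the ordered
pair `a, b` and the function `f`. -/
def PeelAtK (κ : ℝ) (s : Fin n → ℕ) (ρ : ℕ) (a b : Fin n) (f : Box n s (ρ + 1) → ℝ) : Prop :=
  ∃ g : Box n s (ρ + 1) → ℝ,
    avgRel (LineRel a b) g = avgRel (LineRel a b) f ∧
    ∑ z ∈ univ.filter (fun z : Box n s (ρ + 1) => levelB a b z = 0), g z = 0 ∧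
    2 * κ * ∑ z ∈ univ.filter (fun z : Box n s (ρ + 1) => levelB a b z = 0), g z ^ 2
      + slackOff a b (peelFun a b g) ≤ slackOff a b f

/-- The hook-peel hypothesis with constants: in every class with `n ≥ 3` columns, no column of
cap `0` and `0 < ρ + 1 < ∑ s`, every pair of distinct columns and every function of zero sum
satisfy the peeling inequality with the constant `κ n` in one of the two orders of the pair. -/
def PeelHypK (κ : ℕ → ℝ) : Prop :=
  ∀ (n : ℕ), 3 ≤ n → ∀ (s : Fin n → ℕ) (ρ : ℕ), (∀ k, 1 ≤ s k) → ρ + 1 < ∑ k, s k →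
    ∀ a b : Fin n, a ≠ b → ∀ f : Box n s (ρ + 1) → ℝ, ∑ z, f z = 0 →
      PeelAtK (κ n) s ρ a b f ∨ PeelAtK (κ n) s ρ b a f

/-- The pair bound with the constant `κ`: for every function of zero sum, `2 κ` times the
sum of squares minus the slack of the pair `a, b` is at most the slack of the other pairs. -/
def PairBound (κ : ℝ) (s : Fin n → ℕ) (ρ : ℕ) (a b : Fin n) : Prop :=
  ∀ f : Box n s ρ → ℝ, ∑ z, f z = 0 →
    2 * κ * (∑ z, f z ^ 2 - (QB a b f - penB a b f)) ≤ slackOff a b f

/-- Gluing a function on the level `0` and a function on the peeled class with zero level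
sums. -/
theorem exists_glue {s : Fin n → ℕ} {ρ : ℕ} (a b : Fin n) (hab : a ≠ b) (ha : 1 ≤ s a)
    (hb : 1 ≤ s b) (g : Box n s (ρ + 1) → ℝ)
    (hg2 : ∑ z ∈ univ.filter (fun z : Box n s (ρ + 1) => levelB a b z = 0), g z = 0)
    (w' : Box n (peelCap s a b) ρ → ℝ)
    (hw1 : ∀ t : ℕ,
      ∑ z ∈ univ.filter (fun z : Box n (peelCap s a b) ρ => levelB a b z = t), w' z = 0)
    (hw2 : avgRel (LineRel a b) w' = avgRel (LineRel a b) (peelFun a b g)) :
    ∃ w : Box n s (ρ + 1) → ℝ,
      (∀ t : ℕ, ∑ z ∈ univ.filter (fun z : Box n s (ρ + 1) => levelB a b z = t), w z = 0) ∧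
      avgRel (LineRel a b) w = avgRel (LineRel a b) g ∧
      ∑ z, w z ^ 2
        = ∑ z ∈ univ.filter (fun z : Box n s (ρ + 1) => levelB a b z = 0), g z ^ 2
          + ∑ v, w' v ^ 2 := by
  have hR := lineRel_equiv (s := s) (ρ := ρ + 1) a b
  have hR' := lineRel_equiv (s := peelCap s a b) (ρ := ρ) a b
  have hge : ∀ v, peelFun a b g v = g (peelEmb s ρ a b ha v) := fun v => peelFun_eq a b ha g v
  set w : Box n s (ρ + 1) → ℝ := fun z =>
    if levelB a b z = 0 then g z
    else ∑ v : Box n (peelCap s a b) ρ, (if peelEmb s ρ a b ha v = z then w' v else 0) with hw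
  have hW1 : ∀ v, w (peelEmb s ρ a b ha v) = w' v := by
    intro v
    have hl : ¬ levelB a b (peelEmb s ρ a b ha v) = 0 := by
      rw [levelB_peelEmb s ρ a b hab ha hb v]
      omega
    rw [hw]
    beta_reduce
    rw [if_neg hl]
    have e : ∀ u : Box n (peelCap s a b) ρ,
        (if peelEmb s ρ a b ha u = peelEmb s ρ a b ha v then w' u else 0)
          = if u = v then w' u else 0 := by
      intro u
      by_cases huv : u = v
      · rw [if_pos huv, if_pos (by rw [huv])]
      · rw [if_neg huv, if_neg (fun h => huv (peelEmb_inj s ρ a b ha h))]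
    rw [Finset.sum_congr rfl (fun u _ => e u), Finset.sum_ite_eq' univ v w']
    simp
  have hW2 : ∀ z, levelB a b z = 0 → w z = g z := by
    intro z hz
    rw [hw]
    beta_reduce
    rw [if_pos hz]
  have hW3 : ∑ z, w z ^ 2
      = ∑ z ∈ univ.filter (fun z : Box n s (ρ + 1) => levelB a b z = 0), g z ^ 2
        + ∑ v, w' v ^ 2 := by
    rw [sum_peel s ρ a b hab ha hb (fun z => w z ^ 2)]
    congr 1
    · refine Finset.sum_congr rfl (fun z hz => ?_)
      rw [hW2 z (Finset.mem_filter.1 hz).2]
    · refine Finset.sum_congr rfl (fun v _ => ?_)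
      rw [hW1 v]
  have hW4 : ∀ t : ℕ, ∑ z ∈ univ.filter (fun z : Box n s (ρ + 1) => levelB a b z = t), w z
      = 0 := by
    intro t
    rw [Finset.sum_filter, sum_peel s ρ a b hab ha hb (fun z => if levelB a b z = t then w z else 0)]
    rcases Nat.eq_zero_or_pos t with ht | ht
    · have e1 : ∑ z ∈ univ.filter (fun z : Box n s (ρ + 1) => levelB a b z = 0),
          (if levelB a b z = t then w z else 0) = 0 := by
        rw [← hg2]
        refine Finset.sum_congr rfl (fun z hz => ?_)
        have hz0 := (Finset.mem_filter.1 hz).2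
        rw [if_pos (by rw [hz0, ht]), hW2 z hz0]
      have e2 : ∑ v : Box n (peelCap s a b) ρ,
          (if levelB a b (peelEmb s ρ a b ha v) = t then w (peelEmb s ρ a b ha v) else 0)
          = 0 := by
        refine Finset.sum_eq_zero (fun v _ => ?_)
        rw [if_neg]
        rw [levelB_peelEmb s ρ a b hab ha hb v]
        omega
      rw [e1, e2, add_zero]
    · have e1 : ∑ z ∈ univ.filter (fun z : Box n s (ρ + 1) => levelB a b z = 0),
          (if levelB a b z = t then w z else 0) = 0 := by
        refine Finset.sum_eq_zero (fun z hz => ?_)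
        have hz0 := (Finset.mem_filter.1 hz).2
        rw [if_neg]
        omega
      have e2 : ∑ v : Box n (peelCap s a b) ρ,
          (if levelB a b (peelEmb s ρ a b ha v) = t then w (peelEmb s ρ a b ha v) else 0)
          = ∑ v ∈ univ.filter (fun v : Box n (peelCap s a b) ρ => levelB a b v = t - 1),
            w' v := by
        rw [Finset.sum_filter]
        refine Finset.sum_congr rfl (fun v _ => ?_)
        rw [levelB_peelEmb s ρ a b hab ha hb v, hW1 v]
        by_cases hv : levelB a b v = t - 1
        · rw [if_pos hv, if_pos (by omega)]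
        · rw [if_neg hv, if_neg (by omega)]
      rw [e1, e2, hw1 (t - 1), add_zero]
  have hW5 : avgRel (LineRel a b) w = avgRel (LineRel a b) g := by
    funext z
    unfold avgRel
    congr 1
    rw [Finset.sum_filter, Finset.sum_filter,
      sum_peel s ρ a b hab ha hb (fun y => if LineRel a b z y then w y else 0),
      sum_peel s ρ a b hab ha hb (fun y => if LineRel a b z y then g y else 0)]
    congr 1
    · refine Finset.sum_congr rfl (fun y hy => ?_)
      rw [hW2 y (Finset.mem_filter.1 hy).2]
    · by_cases hex : ∃ v0 : Box n (peelCap s a b) ρ, LineRel a b z (peelEmb s ρ a b ha v0)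
      · obtain ⟨v0, hv0⟩ := hex
        have hiff : ∀ v : Box n (peelCap s a b) ρ,
            LineRel a b z (peelEmb s ρ a b ha v) ↔ LineRel a b v0 v := by
          intro v
          rw [← lineRel_peelEmb s ρ a b ha v0 v]
          exact ⟨fun h => hR.trans (hR.symm hv0) h, fun h => hR.trans hv0 h⟩
        have hcl := congrFun hw2 v0
        unfold avgRel at hcl
        have hpos := card_class_pos hR' v0
        have hsum : ∑ v ∈ univ.filter (fun v : Box n (peelCap s a b) ρ => LineRel a b v0 v), w' v
            = ∑ v ∈ univ.filter (fun v : Box n (peelCap s a b) ρ => LineRel a b v0 v),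
              peelFun a b g v := (div_left_inj' (ne_of_gt hpos)).1 hcl
        rw [Finset.sum_filter, Finset.sum_filter] at hsum
        have e1 : ∀ v : Box n (peelCap s a b) ρ,
            (if LineRel a b z (peelEmb s ρ a b ha v) then w (peelEmb s ρ a b ha v) else 0)
              = if LineRel a b v0 v then w' v else 0 := by
          intro v
          by_cases hv : LineRel a b v0 v
          · rw [if_pos hv, if_pos ((hiff v).2 hv), hW1 v]
          · rw [if_neg hv, if_neg (fun h => hv ((hiff v).1 h))]
        have e2 : ∀ v : Box n (peelCap s a b) ρ,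
            (if LineRel a b z (peelEmb s ρ a b ha v) then g (peelEmb s ρ a b ha v) else 0)
              = if LineRel a b v0 v then peelFun a b g v else 0 := by
          intro v
          by_cases hv : LineRel a b v0 v
          · rw [if_pos hv, if_pos ((hiff v).2 hv), hge v]
          · rw [if_neg hv, if_neg (fun h => hv ((hiff v).1 h))]
        rw [Finset.sum_congr rfl (fun v _ => e1 v), Finset.sum_congr rfl (fun v _ => e2 v)]
        exact hsum
      · have e1 : ∀ v : Box n (peelCap s a b) ρ,
            (if LineRel a b z (peelEmb s ρ a b ha v) then w (peelEmb s ρ a b ha v) else 0)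
              = 0 := fun v => if_neg (fun h => hex ⟨v, h⟩)
        have e2 : ∀ v : Box n (peelCap s a b) ρ,
            (if LineRel a b z (peelEmb s ρ a b ha v) then g (peelEmb s ρ a b ha v) else 0)
              = 0 := fun v => if_neg (fun h => hex ⟨v, h⟩)
        rw [Finset.sum_congr rfl (fun v _ => e1 v), Finset.sum_congr rfl (fun v _ => e2 v)]
  exact ⟨w, hW4, hW5, hW3⟩

/-- The peeling step for the pair bound. -/
theorem pair_peel_step {s : Fin n → ℕ} {ρ : ℕ} (κ : ℝ) (hκ : 0 ≤ κ) (a b : Fin n)
    (hab : a ≠ b) (ha : 1 ≤ s a) (hb : 1 ≤ s b) (ih : PairBound κ (peelCap s a b) ρ a b)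
    (f : Box n s (ρ + 1) → ℝ) (hf : ∑ z, f z = 0) (hP : PeelAtK κ s ρ a b f) :
    2 * κ * (∑ z, f z ^ 2 - (QB a b f - penB a b f)) ≤ slackOff a b f := by
  obtain ⟨g, hg1, hg2, hg3⟩ := hP
  have hR := lineRel_equiv (s := s) (ρ := ρ + 1) a b
  have hge : ∀ v, peelFun a b g v = g (peelEmb s ρ a b ha v) := fun v => peelFun_eq a b ha g v
  have hgsum : ∑ z, g z = 0 := by
    rw [← TransferAux.sum_avgRel (LineRel a b) hR g, hg1,
      TransferAux.sum_avgRel (LineRel a b) hR f, hf]
  have hg'sum : ∑ v, peelFun a b g v = 0 := by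
    have h := sum_peel s ρ a b hab ha hb g
    rw [hgsum, hg2, zero_add] at h
    rw [Finset.sum_congr rfl (fun v _ => hge v)]
    exact h.symm
  have hIH := ih (peelFun a b g) hg'sum
  rw [QB_eq a b (peelFun a b g)] at hIH
  obtain ⟨w', hw1, hw2, hw3⟩ := exists_lift_box a b hab (peelFun a b g) hg'sum
  obtain ⟨w, hW4, hW5, hW3⟩ := exists_glue a b hab ha hb g hg2 w' hw1 hw2
  have hlift := penB_le_of_lift a b hab f hf w hW4 (hW5.trans hg1)
  rw [hW3, hw3] at hlift
  rw [QB_eq a b f]
  have e1 : ∑ z, f z ^ 2 - (∑ z, f z ^ 2 - ∑ z, avgRel (LineRel a b) f z ^ 2 - penB a b f)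
      = ∑ z, avgRel (LineRel a b) f z ^ 2 + penB a b f := by ring
  have e2 : ∑ v, peelFun a b g v ^ 2
        - (∑ v, peelFun a b g v ^ 2 - ∑ v, avgRel (LineRel a b) (peelFun a b g) v ^ 2
          - penB a b (peelFun a b g))
      = ∑ v, avgRel (LineRel a b) (peelFun a b g) v ^ 2 + penB a b (peelFun a b g) := by ring
  rw [e1]
  rw [e2] at hIH
  have h2κ : (0 : ℝ) ≤ 2 * κ := by linarith
  have hmul := mul_le_mul_of_nonneg_left hlift h2κ
  linarith

/-- The block Dirichlet form of a pair whose first column has cap `0` vanishes. -/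
theorem QB_dead_left {s : Fin n → ℕ} {ρ : ℕ} (a b : Fin n) (ha : s a = 0)
    (f : Box n s ρ → ℝ) : QB a b f = 0 := by
  have key : ∀ z y : Box n s ρ, LineRel a b z y → y = z := by
    intro z y h
    apply Subtype.ext
    funext k
    by_cases hka : k = a
    · have h1 := z.2.1 a
      have h2 := y.2.1 a
      rw [hka]
      omega
    · by_cases hkb : k = b
      · have hz := z.2.2
        have hy := y.2.2
        have e : ∑ j ∈ univ.erase b, y.1 j = ∑ j ∈ univ.erase b, z.1 j := by
          refine Finset.sum_congr rfl (fun j hj => ?_)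
          have hjb : j ≠ b := Finset.ne_of_mem_erase hj
          by_cases hja : j = a
          · have h1 := z.2.1 a
            have h2 := y.2.1 a
            rw [hja]
            omega
          · exact (h j hja hjb).symm
        have e1 := Finset.add_sum_erase univ (fun j => y.1 j) (Finset.mem_univ b)
        have e2 := Finset.add_sum_erase univ (fun j => z.1 j) (Finset.mem_univ b)
        rw [hkb]
        omega
      · exact (h k hka hkb).symm
  have hav : ∀ z, avgRel (LineRel a b) f z = f z := by
    intro z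
    unfold avgRel
    have e : univ.filter (fun y : Box n s ρ => LineRel a b z y) = {z} := by
      ext y
      rw [Finset.mem_filter, Finset.mem_singleton]
      constructor
      · intro hy
        exact key z y hy.2
      · intro hy
        rw [hy]
        exact ⟨Finset.mem_univ _, (lineRel_equiv (s := s) (ρ := ρ) a b).refl z⟩
    rw [e]
    simp
  unfold QB
  refine Finset.sum_eq_zero (fun z _ => ?_)
  rw [hav z]
  simp

/-- The pair bound in a class with at most one element. -/
theorem pairBound_subsingleton {s : Fin n → ℕ} {ρ : ℕ} (hsub : Subsingleton (Box n s ρ))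
    (κ : ℝ) (a b : Fin n) : PairBound κ s ρ a b := by
  intro f hf
  have hf0 : f = fun _ => 0 := by
    funext z
    rw [← Fintype.sum_subsingleton f z]
    exact hf
  rw [hf0]
  simp [QB, penB, slackOff, avgRel]

/-- A class with a column of cap `0` inherits the slack bound with a constant from the classes
with one column less. -/
theorem slack_dead_k {m : ℕ} (c0 : ℝ) (hc0 : c0 ≤ 1)
    (ih : ∀ (s : Fin m → ℕ) (ρ : ℕ) (f : Box m s ρ → ℝ), 2 * c0 * devB f ≤ slackB f)
    {s : Fin (m + 1) → ℕ} {ρ : ℕ} (c : Fin (m + 1)) (hc : s c = 0)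
    (f : Box (m + 1) s ρ → ℝ) : 2 * c0 * devB f ≤ slackB f := by
  have hstep := step_of_freeStep 1 c f (freeStep_dead c hc (centreB f) (sum_centreB f))
  have h := step_aux c0 1 ih f c hstep
  rw [min_eq_left hc0] at h
  exact h

/-- The pair bound for a pair with a column of cap `0`. -/
theorem pairBound_dead {m : ℕ} (c0 κ : ℝ) (hc0 : c0 ≤ 1) (hκ : κ ≤ c0)
    (ih : ∀ (s : Fin m → ℕ) (ρ : ℕ) (f : Box m s ρ → ℝ), 2 * c0 * devB f ≤ slackB f)
    {s : Fin (m + 1) → ℕ} {ρ : ℕ} (a b : Fin (m + 1)) (hab : a ≠ b)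
    (hd : s a = 0 ∨ s b = 0) : PairBound κ s ρ a b := by
  intro f hf
  have hQ : QB a b f = 0 := by
    rcases hd with h | h
    · exact QB_dead_left a b h f
    · rw [QB_comm2 a b f]
      exact QB_dead_left b a h f
  have hp : penB a b f = 0 := penB_dead a b hd f
  have hdead : ∃ c, s c = 0 := by
    rcases hd with h | h
    · exact ⟨a, h⟩
    · exact ⟨b, h⟩
  obtain ⟨c, hc⟩ := hdead
  have h1 := slack_dead_k c0 hc0 ih c hc f
  have hdev : devB f = ∑ z, f z ^ 2 := by
    unfold devB
    rw [centreB_of_sum_zero f hf]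
  have hsp := slack_split a b hab f hf
  rw [hQ, hp] at hsp ⊢
  rw [hdev] at h1
  have hD : 0 ≤ ∑ z, f z ^ 2 := Finset.sum_nonneg (fun z _ => sq_nonneg _)
  nlinarith [mul_le_mul_of_nonneg_right hκ hD]

/-- The slack over the other pairs does not depend on the order of the pair. -/
theorem slackOff_comm {s : Fin n → ℕ} {ρ : ℕ} (a b : Fin n) (hab : a ≠ b)
    (f : Box n s ρ → ℝ) (hf : ∑ z, f z = 0) : slackOff a b f = slackOff b a f := by
  have h1 := slack_split a b hab f hf
  have h2 := slack_split b a (Ne.symm hab) f hf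
  rw [QB_comm2 b a f, penB_comm2 b a (Ne.symm hab) f] at h2
  linarith

/-- The pair bound along the chain of peeled classes of one pair. -/
theorem pair_chain (κ : ℕ → ℝ) (h0 : ∀ k, 0 < κ k) (h1 : ∀ k, κ k ≤ 1)
    (hanti : ∀ k, κ (k + 1) ≤ κ k) (h : PeelHypK κ) {m : ℕ} (hm : 3 ≤ m + 1)
    (ih : ∀ (s : Fin m → ℕ) (ρ : ℕ) (f : Box m s ρ → ℝ), 2 * κ m * devB f ≤ slackB f) :
    ∀ (ρ : ℕ) (s : Fin (m + 1) → ℕ) (a b : Fin (m + 1)), a ≠ b →
      (∀ k, k ≠ a → k ≠ b → 1 ≤ s k) → PairBound (κ (m + 1)) s ρ a b := by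
  intro ρ
  induction ρ with
  | zero =>
    intro s a b _ _
    exact pairBound_subsingleton (box_subsingleton_zero s) _ a b
  | succ ρ ihρ =>
    intro s a b hab hcap
    by_cases hd : s a = 0 ∨ s b = 0
    · exact pairBound_dead (κ m) (κ (m + 1)) (h1 m) (hanti m) ih a b hab hd
    · have hsa : 1 ≤ s a := by omega
      have hsb : 1 ≤ s b := by omega
      have hs : ∀ k, 1 ≤ s k := by
        intro k
        by_cases hka : k = a
        · rw [hka]
          exact hsa
        · by_cases hkb : k = b
          · rw [hkb]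
            exact hsb
          · exact hcap k hka hkb
      rcases Nat.lt_or_ge (ρ + 1) (∑ k, s k) with hlt | hge
      · intro f hf
        have hcap' : ∀ k, k ≠ a → k ≠ b → 1 ≤ peelCap s a b k := by
          intro k hka hkb
          unfold peelCap
          rw [if_neg (by tauto)]
          exact hcap k hka hkb
        have hcap'' : ∀ k, k ≠ b → k ≠ a → 1 ≤ peelCap s b a k := by
          intro k hkb hka
          unfold peelCap
          rw [if_neg (by tauto)]
          exact hcap k hka hkb
        rcases h (m + 1) hm s ρ hs hlt a b hab f hf with hP | hP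
        · exact pair_peel_step (κ (m + 1)) (le_of_lt (h0 _)) a b hab hsa hsb
            (ihρ (peelCap s a b) a b hab hcap') f hf hP
        · have key := pair_peel_step (κ (m + 1)) (le_of_lt (h0 _)) b a (Ne.symm hab) hsb hsa
            (ihρ (peelCap s b a) b a (Ne.symm hab) hcap'') f hf hP
          rw [QB_comm2 b a f, penB_comm2 b a (Ne.symm hab) f,
            ← slackOff_comm a b hab f hf] at key
          exact key
      · exact pairBound_subsingleton (box_subsingleton_full s (ρ + 1) hge) _ a b

/-- The number of ordered pairs of distinct columns. -/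
theorem card_offdiag (n : ℕ) :
    ∑ a : Fin n, ∑ b : Fin n, (if a ≠ b then (1 : ℝ) else 0) = (n : ℝ) * ((n : ℝ) - 1) := by
  have e : ∀ a b : Fin n, (if a ≠ b then (1 : ℝ) else 0) = 1 - (if a = b then 1 else 0) := by
    intro a b
    by_cases hab : a = b
    · simp [hab]
    · simp [hab]
  simp only [e, Finset.sum_sub_distrib, Finset.sum_ite_eq, Finset.mem_univ, if_true,
    Finset.sum_const, Finset.card_univ, Fintype.card_fin, nsmul_eq_mul, mul_one]
  ring

/-- The pair bounds of all pairs give the slack bound. -/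
theorem slack_of_pairBound {s : Fin n → ℕ} {ρ : ℕ} (κ : ℝ) (hκ0 : 0 < κ) (hκ1 : κ ≤ 1)
    (hn : 2 ≤ n) (hpb : ∀ a b : Fin n, a ≠ b → PairBound κ s ρ a b) (f : Box n s ρ → ℝ) :
    2 * κ * devB f ≤ slackB f := by
  have hc := sum_centreB f
  rw [← devB_centreB f, ← slackB_centreB f]
  generalize centreB f = g at hc
  have hdev : devB g = ∑ z, g z ^ 2 := by
    unfold devB
    rw [centreB_of_sum_zero g hc]
  have hS : slackB g
      = ∑ a : Fin n, ∑ b : Fin n, (if a ≠ b then QB a b g - penB a b g else 0) := by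
    unfold slackB
    rw [centreB_of_sum_zero g hc]
  have hpair : ∀ a b : Fin n, a ≠ b →
      2 * (1 - κ) * (QB a b g - penB a b g) ≤ slackB g - 2 * κ * devB g := by
    intro a b hab
    have h1 := hpb a b hab g hc
    have h2 := slack_split a b hab g hc
    rw [hdev]
    linarith
  have hsum : ∑ a : Fin n, ∑ b : Fin n,
      (if a ≠ b then 2 * (1 - κ) * (QB a b g - penB a b g) else 0)
      ≤ ∑ a : Fin n, ∑ b : Fin n, (if a ≠ b then slackB g - 2 * κ * devB g else 0) := by
    refine Finset.sum_le_sum (fun a _ => Finset.sum_le_sum (fun b _ => ?_))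
    by_cases hab : a ≠ b
    · rw [if_pos hab, if_pos hab]
      exact hpair a b hab
    · rw [if_neg hab, if_neg hab]
  have eL : ∑ a : Fin n, ∑ b : Fin n,
      (if a ≠ b then 2 * (1 - κ) * (QB a b g - penB a b g) else 0)
      = 2 * (1 - κ) * slackB g := by
    rw [hS, Finset.mul_sum]
    refine Finset.sum_congr rfl (fun a _ => ?_)
    rw [Finset.mul_sum]
    refine Finset.sum_congr rfl (fun b _ => ?_)
    by_cases hab : a ≠ b
    · rw [if_pos hab, if_pos hab]
    · rw [if_neg hab, if_neg hab, mul_zero]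
  have eR : ∑ a : Fin n, ∑ b : Fin n, (if a ≠ b then slackB g - 2 * κ * devB g else 0)
      = (n : ℝ) * ((n : ℝ) - 1) * (slackB g - 2 * κ * devB g) := by
    rw [← card_offdiag n, Finset.sum_mul]
    refine Finset.sum_congr rfl (fun a _ => ?_)
    rw [Finset.sum_mul]
    refine Finset.sum_congr rfl (fun b _ => ?_)
    by_cases hab : a ≠ b
    · rw [if_pos hab, if_pos hab, one_mul]
    · rw [if_neg hab, if_neg hab, zero_mul]
  rw [eL, eR] at hsum
  have hD : 0 ≤ devB g := devB_nonneg g
  have hn' : (2 : ℝ) ≤ n := by exact_mod_cast hn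
  have hM : 2 ≤ (n : ℝ) * ((n : ℝ) - 1) := by nlinarith
  by_contra hneg
  rw [not_le] at hneg
  have hu : 0 < 2 * κ * devB g - slackB g := by linarith
  have t1 := mul_nonneg (sub_nonneg.2 hM) (le_of_lt hu)
  have t2 := mul_nonneg (mul_nonneg (le_of_lt hκ0) (sub_nonneg.2 hκ1)) hD
  have t3 := mul_pos hκ0 hu
  nlinarith

/-- Under the hook-peel hypothesis with constants the slack of every class with `n` columns is
at least `2 κ n` times the squared deviation from the mean. -/
theorem peelK_slack (κ : ℕ → ℝ) (h0 : ∀ k, 0 < κ k) (h1 : ∀ k, κ k ≤ 1)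
    (hanti : ∀ k, κ (k + 1) ≤ κ k) (h : PeelHypK κ) :
    ∀ (n : ℕ) (s : Fin n → ℕ) (ρ : ℕ) (f : Box n s ρ → ℝ), 2 * κ n * devB f ≤ slackB f := by
  intro n
  induction n with
  | zero =>
    intro s ρ f
    have hsub := slack_subsingleton (box_subsingleton (by omega) s ρ) f
    have hD := devB_nonneg f
    nlinarith [mul_le_mul_of_nonneg_right (h1 0) hD]
  | succ m ih =>
    intro s ρ f
    have hD := devB_nonneg f
    rcases Nat.lt_or_ge (m + 1) 2 with hlt | h2
    · have hsub := slack_subsingleton (box_subsingleton (by omega) s ρ) f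
      nlinarith [mul_le_mul_of_nonneg_right (h1 (m + 1)) hD]
    · rcases Nat.eq_or_lt_of_le h2 with e2 | h3
      · obtain rfl : m = 1 := by omega
        rw [slack_two_dev]
        nlinarith [mul_le_mul_of_nonneg_right (h1 (1 + 1)) hD]
      · by_cases hdead : ∃ c, s c = 0
        · obtain ⟨c, hc⟩ := hdead
          have hk := slack_dead_k (κ m) (h1 m) ih c hc f
          nlinarith [mul_le_mul_of_nonneg_right (hanti m) hD]
        · have hs : ∀ k, 1 ≤ s k := by
            intro k
            by_contra hk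
            exact hdead ⟨k, by omega⟩
          refine slack_of_pairBound (κ (m + 1)) (h0 _) (h1 _) h2 (fun a b hab => ?_) f
          exact pair_chain κ h0 h1 hanti h (by omega) ih ρ s a b hab (fun k _ _ => hs k)

/-- Conditional main theorem (hook-peel route with constants): under the hook-peel hypothesis
with constants `0 < κ k ≤ 1`, nonincreasing in `k`, for all `m, n ≥ 2` and all margins the
`2 x 2` heat-bath chain satisfies the Poincare inequality with the constant
`δ / (m (m - 1) n (n - 1))` for every `0 < δ ≤ 2 κ m, 2 κ n`, and its lazy version mixes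
within the corresponding time. -/
theorem main_peelK (κ : ℕ → ℝ) (h0 : ∀ k, 0 < κ k) (h1 : ∀ k, κ k ≤ 1)
    (hanti : ∀ k, κ (k + 1) ≤ κ k) (h : PeelHypK κ) {m n : ℕ} (hm : 2 ≤ m) (hn : 2 ≤ n)
    (r : Fin m → ℕ) (c : Fin n → ℕ) (δ : ℝ) (hδ0 : 0 < δ) (hδm : δ ≤ 2 * κ m)
    (hδn : δ ≤ 2 * κ n) :
    (∀ f : Omega r c → ℝ, ∑ X, f X = 0 →
      δ / ((m : ℝ) * (m - 1) * ((n : ℝ) * (n - 1))) * ∑ X, f X ^ 2
        ≤ (1 / 2 : ℝ) * ∑ X, ∑ Y, blockChain r c X Y * (f X - f Y) ^ 2) ∧
    ∀ (η : ℝ), 0 < η → ∀ t : ℕ,
      2 * ((m : ℝ) * (m - 1) * ((n : ℝ) * (n - 1))) / δ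
        * ((m : ℝ) * ∑ j, Real.log ((c j : ℝ) + 1) + 2 * Real.log (1 / η)) ≤ t →
      ∀ X : Omega r c,
        (1 / 2 : ℝ) * ∑ Y, |(((1 / 2 : ℝ) • (1 + blockChain r c)) ^ t) X Y
          - 1 / (Fintype.card (Omega r c) : ℝ)| ≤ η := by
  have hs : SurHypG (fun _ => 1) (fun k => 2 * κ k) :=
    surHypG_of_slack κ (peelK_slack κ h0 h1 hanti h)
  have hδ2 : δ ≤ 2 := by
    have := h1 m
    linarith
  refine main_surG (fun _ => 1) (fun k => 2 * κ k) hs
    (fun _ => le_refl _) hm hn r c δ hδ0 hδ2 ?_ ?_
  · show δ ≤ 2 * κ m + 2 * (1 - 1)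
    linarith
  · show δ ≤ 2 * κ n + 2 * (1 - 1)
    linarith

end Vale.Agent.H66.CT
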