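import Vale.Agent.H2.CT.BoxKappaFree
import Vale.Agent.H2.CT.StepArms
import Vale.Agent.H91.CT.BoxLift

/-!
P328: the hook-peel induction (reduction only).

For an ordered pair of distinct columns `a, b` of a box-slice class `Box n s (ρ + 1)` the points
of level `levelB a b ≥ 1` form a copy of the class `Box n (peelCap s a b) ρ` (caps of `a` and
`b` lowered by one, the entry at `a` shifted by one).  `PeelAt` is the peeling inequality for a
function `f` of zero sum: there is `g` with the line averages of `f` for the pair `a, b` and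
zero sum on the level `0` such that the slack of `f` over the other pairs is at least twice the
sum of the squares of `g` on the level `0` plus the slack over the other pairs of the
restriction of `g` to the peeled class.  `PeelHyp` asks for such a pair in every class with at
least three columns, no column of cap `0` and `0 < ρ + 1 < ∑ s`.  Under `PeelHyp` the slack of
every class is at least twice the squared deviation from the mean (induction on the number of
columns and on `ρ`), which gives the Poincare inequality and the mixing time bound of the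
`2 x 2` heat-bath chain.
-/

namespace Vale.Agent.H66.CT

open Finset Vale.Agent.H90 Vale.Agent.H88.CT Vale.Agent.H91.CT Vale.Agent.H14.CT
  Vale.Agent.H2.CT

variable {n : ℕ}

/-- Caps of the peeled class: the caps of the columns `a` and `b` are lowered by one. -/
def peelCap (s : Fin n → ℕ) (a b : Fin n) : Fin n → ℕ :=
  fun k => if k = a ∨ k = b then s k - 1 else s k

theorem peelEmb_aux (s : Fin n → ℕ) (ρ : ℕ) (a b : Fin n) (ha : 1 ≤ s a)
    (z : Box n (peelCap s a b) ρ) :
    (∀ k, z.1 k + (if k = a then 1 else 0) ≤ s k) ∧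
      ∑ k, (z.1 k + (if k = a then 1 else 0)) = ρ + 1 := by
  constructor
  · intro k
    have hk := z.2.1 k
    unfold peelCap at hk
    by_cases hka : k = a
    · rw [if_pos hka]
      rw [if_pos (Or.inl hka)] at hk
      rw [hka] at hk ⊢
      omega
    · rw [if_neg hka]
      by_cases hkb : k = b
      · rw [if_pos (Or.inr hkb)] at hk
        omega
      · rw [if_neg (by tauto)] at hk
        omega
  · rw [Finset.sum_add_distrib, z.2.2, Finset.sum_ite_eq' univ a (fun _ => 1)]
    simp

/-- The embedding of the peeled class: the entry at `a` is raised by one. -/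
def peelEmb (s : Fin n → ℕ) (ρ : ℕ) (a b : Fin n) (ha : 1 ≤ s a)
    (z : Box n (peelCap s a b) ρ) : Box n s (ρ + 1) :=
  ⟨fun k => z.1 k + (if k = a then 1 else 0), peelEmb_aux s ρ a b ha z⟩

theorem peelEmb_val (s : Fin n → ℕ) (ρ : ℕ) (a b : Fin n) (ha : 1 ≤ s a)
    (z : Box n (peelCap s a b) ρ) (k : Fin n) :
    (peelEmb s ρ a b ha z).1 k = z.1 k + (if k = a then 1 else 0) := rfl

theorem peelEmb_inj (s : Fin n → ℕ) (ρ : ℕ) (a b : Fin n) (ha : 1 ≤ s a) :
    Function.Injective (peelEmb s ρ a b ha) := by
  intro z w h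
  apply Subtype.ext
  funext k
  have hk := congrArg (fun v : Box n s (ρ + 1) => v.1 k) h
  simp only [peelEmb_val] at hk
  omega

/-- The restriction of `g` to the peeled class (value `0` if the shifted vector is not in the
class). -/
noncomputable def peelFun (a b : Fin n) {s : Fin n → ℕ} {ρ : ℕ} (g : Box n s (ρ + 1) → ℝ) :
    Box n (peelCap s a b) ρ → ℝ :=
  fun z =>
    if h : (∀ k, z.1 k + (if k = a then 1 else 0) ≤ s k) ∧
        ∑ k, (z.1 k + (if k = a then 1 else 0)) = ρ + 1
    then g ⟨fun k => z.1 k + (if k = a then 1 else 0), h⟩ else 0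

theorem peelFun_eq (a b : Fin n) {s : Fin n → ℕ} {ρ : ℕ} (ha : 1 ≤ s a)
    (g : Box n s (ρ + 1) → ℝ) (z : Box n (peelCap s a b) ρ) :
    peelFun a b g z = g (peelEmb s ρ a b ha z) := by
  unfold peelFun
  rw [dif_pos (peelEmb_aux s ρ a b ha z)]
  rfl

theorem levelB_peelEmb (s : Fin n → ℕ) (ρ : ℕ) (a b : Fin n) (hab : a ≠ b) (ha : 1 ≤ s a)
    (hb : 1 ≤ s b) (z : Box n (peelCap s a b) ρ) :
    levelB a b (peelEmb s ρ a b ha z) = levelB a b z + 1 := by
  have hzb := z.2.1 b
  unfold peelCap at hzb
  rw [if_pos (Or.inr rfl)] at hzb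
  unfold levelB
  rw [peelEmb_val, peelEmb_val, if_pos rfl, if_neg (Ne.symm hab)]
  unfold peelCap
  rw [if_pos (Or.inr rfl)]
  omega

theorem lineRel_peelEmb (s : Fin n → ℕ) (ρ : ℕ) (a b : Fin n) (ha : 1 ≤ s a)
    (z w : Box n (peelCap s a b) ρ) :
    LineRel a b (peelEmb s ρ a b ha z) (peelEmb s ρ a b ha w) ↔ LineRel a b z w := by
  unfold LineRel
  constructor
  · intro h k hka hkb
    have hk := h k hka hkb
    rw [peelEmb_val, peelEmb_val, if_neg hka] at hk
    omega
  · intro h k hka hkb
    rw [peelEmb_val, peelEmb_val, if_neg hka, h k hka hkb]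

/-- Every point of positive level is in the image of the embedding. -/
theorem exists_peelEmb (s : Fin n → ℕ) (ρ : ℕ) (a b : Fin n) (ha : 1 ≤ s a)
    (z : Box n s (ρ + 1)) (hz : levelB a b z ≠ 0) :
    ∃ w : Box n (peelCap s a b) ρ, peelEmb s ρ a b ha w = z := by
  unfold levelB at hz
  have hza : 1 ≤ z.1 a := by omega
  have hzb : z.1 b + 1 ≤ s b := by omega
  have hpt : ∀ k, (z.1 k - (if k = a then 1 else 0)) + (if k = a then 1 else 0) = z.1 k := by
    intro k
    by_cases hka : k = a
    · rw [if_pos hka, hka]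
      omega
    · rw [if_neg hka]
      omega
  have hmem : (∀ k, z.1 k - (if k = a then 1 else 0) ≤ peelCap s a b k) ∧
      ∑ k, (z.1 k - (if k = a then 1 else 0)) = ρ := by
    constructor
    · intro k
      have hk := z.2.1 k
      unfold peelCap
      by_cases hka : k = a
      · rw [if_pos hka, if_pos (Or.inl hka), hka]
        rw [hka] at hk
        omega
      · rw [if_neg hka]
        by_cases hkb : k = b
        · rw [if_pos (Or.inr hkb), hkb]
          omega
        · rw [if_neg (by tauto)]
          omega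
    · have h1 : ∑ k, ((z.1 k - (if k = a then 1 else 0)) + (if k = a then 1 else 0))
          = ρ + 1 := by
        rw [Finset.sum_congr rfl (fun k _ => hpt k)]
        exact z.2.2
      rw [Finset.sum_add_distrib, Finset.sum_ite_eq' univ a (fun _ => 1)] at h1
      simp only [Finset.mem_univ, if_true] at h1
      omega
  refine ⟨⟨fun k => z.1 k - (if k = a then 1 else 0), hmem⟩, ?_⟩
  apply Subtype.ext
  funext k
  exact hpt k

/-- A sum over the class splits into the sum over the level `0` and the sum over the peeled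
class. -/
theorem sum_peel (s : Fin n → ℕ) (ρ : ℕ) (a b : Fin n) (hab : a ≠ b) (ha : 1 ≤ s a)
    (hb : 1 ≤ s b) (φ : Box n s (ρ + 1) → ℝ) :
    ∑ z, φ z = ∑ z ∈ univ.filter (fun z : Box n s (ρ + 1) => levelB a b z = 0), φ z
      + ∑ w : Box n (peelCap s a b) ρ, φ (peelEmb s ρ a b ha w) := by
  rw [← Finset.sum_filter_add_sum_filter_not univ
    (fun z : Box n s (ρ + 1) => levelB a b z = 0) φ]
  congr 1
  symm
  refine Finset.sum_bij (fun w _ => peelEmb s ρ a b ha w) ?_ ?_ ?_ ?_
  · intro w _
    rw [Finset.mem_filter]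
    refine ⟨Finset.mem_univ _, ?_⟩
    rw [levelB_peelEmb s ρ a b hab ha hb w]
    omega
  · intro w _ w' _ h
    exact peelEmb_inj s ρ a b ha h
  · intro z hz
    rw [Finset.mem_filter] at hz
    obtain ⟨w, hw⟩ := exists_peelEmb s ρ a b ha z hz.2
    exact ⟨w, Finset.mem_univ _, hw⟩
  · intro w _
    rfl

/-- The slack over the ordered pairs of distinct columns other than the pair `a, b` in its two
orders (block Dirichlet form minus penalty, the penalty taken of `f` itself). -/
noncomputable def slackOff {s : Fin n → ℕ} {ρ : ℕ} (a b : Fin n) (f : Box n s ρ → ℝ) : ℝ :=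
  ∑ x : Fin n, ∑ y : Fin n,
    if x ≠ y ∧ ¬ (x = a ∧ y = b) ∧ ¬ (x = b ∧ y = a) then QB x y f - penB x y f else 0

/-- The peeling inequality for the class `Box n s (ρ + 1)`, the ordered pair `a, b` and the
function `f`. -/
def PeelAt (s : Fin n → ℕ) (ρ : ℕ) (a b : Fin n) (f : Box n s (ρ + 1) → ℝ) : Prop :=
  ∃ g : Box n s (ρ + 1) → ℝ,
    avgRel (LineRel a b) g = avgRel (LineRel a b) f ∧
    ∑ z ∈ univ.filter (fun z : Box n s (ρ + 1) => levelB a b z = 0), g z = 0 ∧
    2 * ∑ z ∈ univ.filter (fun z : Box n s (ρ + 1) => levelB a b z = 0), g z ^ 2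
      + slackOff a b (peelFun a b g) ≤ slackOff a b f

/-- The hook-peel hypothesis: in every class with at least three columns, no column of cap `0`
and `0 < ρ + 1 < ∑ s`, every function of zero sum satisfies the peeling inequality for some
ordered pair of distinct columns. -/
def PeelHyp : Prop :=
  ∀ (n : ℕ), 3 ≤ n → ∀ (s : Fin n → ℕ) (ρ : ℕ), (∀ k, 1 ≤ s k) → ρ + 1 < ∑ k, s k →
    ∀ f : Box n s (ρ + 1) → ℝ, ∑ z, f z = 0 → ∃ a b : Fin n, a ≠ b ∧ PeelAt s ρ a b f

/-- Splitting off the pair `a, b` in its two orders from a sum over the ordered pairs of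
distinct columns. -/
theorem sum_ne_off (a b : Fin n) (hab : a ≠ b) (G : Fin n → Fin n → ℝ) :
    ∑ x : Fin n, ∑ y : Fin n, (if x ≠ y then G x y else 0)
      = ∑ x : Fin n, ∑ y : Fin n,
          (if x ≠ y ∧ ¬ (x = a ∧ y = b) ∧ ¬ (x = b ∧ y = a) then G x y else 0)
        + G a b + G b a := by
  have e1 : ∑ x : Fin n, ∑ y : Fin n, (if x = a ∧ y = b then G x y else 0) = G a b := by
    rw [Finset.sum_eq_single a]
    · rw [Finset.sum_eq_single b]
      · rw [if_pos ⟨rfl, rfl⟩]
      · intro y _ hy
        rw [if_neg (fun h => hy h.2)]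
      · intro h
        exact absurd (Finset.mem_univ b) h
    · intro x _ hx
      exact Finset.sum_eq_zero (fun y _ => if_neg (fun h => hx h.1))
    · intro h
      exact absurd (Finset.mem_univ a) h
  have e2 : ∑ x : Fin n, ∑ y : Fin n, (if x = b ∧ y = a then G x y else 0) = G b a := by
    rw [Finset.sum_eq_single b]
    · rw [Finset.sum_eq_single a]
      · rw [if_pos ⟨rfl, rfl⟩]
      · intro y _ hy
        rw [if_neg (fun h => hy h.2)]
      · intro h
        exact absurd (Finset.mem_univ a) h
    · intro x _ hx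
      exact Finset.sum_eq_zero (fun y _ => if_neg (fun h => hx h.1))
    · intro h
      exact absurd (Finset.mem_univ b) h
  rw [← e1, ← e2, ← Finset.sum_add_distrib, ← Finset.sum_add_distrib]
  refine Finset.sum_congr rfl (fun x _ => ?_)
  rw [← Finset.sum_add_distrib, ← Finset.sum_add_distrib]
  refine Finset.sum_congr rfl (fun y _ => ?_)
  by_cases h1 : x = a ∧ y = b
  · have hxy : x ≠ y := by
      rw [h1.1, h1.2]
      exact hab
    have h2 : ¬ (x = b ∧ y = a) := by
      intro h
      exact hab (h1.1.symm.trans h.1)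
    rw [if_pos hxy, if_neg (by tauto), if_pos h1, if_neg h2]
    ring
  · by_cases h2 : x = b ∧ y = a
    · have hxy : x ≠ y := by
        rw [h2.1, h2.2]
        exact Ne.symm hab
      rw [if_pos hxy, if_neg (by tauto), if_neg h1, if_pos h2]
      ring
    · by_cases hxy : x ≠ y
      · rw [if_pos hxy, if_pos ⟨hxy, h1, h2⟩, if_neg h1, if_neg h2]
        ring
      · rw [if_neg hxy, if_neg (by tauto), if_neg h1, if_neg h2]
        ring

/-- The slack of a function of zero sum: the slack over the other pairs plus twice the slack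
of the pair `a, b`. -/
theorem slack_split {s : Fin n → ℕ} {ρ : ℕ} (a b : Fin n) (hab : a ≠ b) (f : Box n s ρ → ℝ)
    (hf : ∑ z, f z = 0) :
    slackB f = slackOff a b f + 2 * (QB a b f - penB a b f) := by
  unfold slackB slackOff
  rw [centreB_of_sum_zero f hf, sum_ne_off a b hab (fun x y => QB x y f - penB x y f),
    ← QB_comm2 a b f, ← penB_comm2 a b hab f]
  ring

/-- A class with at most one element satisfies the slack bound. -/
theorem slack_subsingleton {s : Fin n → ℕ} {ρ : ℕ} (hb : Subsingleton (Box n s ρ))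
    (f : Box n s ρ → ℝ) : 2 * devB f ≤ slackB f := by
  have hc : centreB f = fun _ => 0 := by
    funext z
    rw [← Fintype.sum_subsingleton (centreB f) z]
    exact sum_centreB f
  have h1 : devB f = 0 := by
    unfold devB
    rw [hc]
    simp
  have h2 : 0 ≤ slackB f := by
    unfold slackB
    refine Finset.sum_nonneg (fun x _ => Finset.sum_nonneg (fun y _ => ?_))
    by_cases hxy : x ≠ y
    · rw [if_pos hxy, hc]
      have hp : penB x y (fun _ : Box n s ρ => (0 : ℝ)) = 0 := by
        unfold penB
        simp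
      rw [hp, sub_zero]
      unfold QB
      exact Finset.sum_nonneg (fun z _ => sq_nonneg _)
    · rw [if_neg hxy]
  rw [h1]
  linarith

theorem box_subsingleton_zero (s : Fin n → ℕ) : Subsingleton (Box n s 0) := by
  constructor
  intro z w
  apply Subtype.ext
  funext k
  have hz : z.1 k = 0 := (Finset.sum_eq_zero_iff.1 z.2.2) k (Finset.mem_univ k)
  have hw : w.1 k = 0 := (Finset.sum_eq_zero_iff.1 w.2.2) k (Finset.mem_univ k)
  rw [hz, hw]

theorem box_subsingleton_full (s : Fin n → ℕ) (ρ : ℕ) (h : ∑ k, s k ≤ ρ) :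
    Subsingleton (Box n s ρ) := by
  have key : ∀ v : Box n s ρ, ∀ k, v.1 k = s k := by
    intro v k
    by_contra hne
    have hlt : v.1 k < s k := lt_of_le_of_ne (v.2.1 k) hne
    have hsum : ∑ k, v.1 k < ∑ k, s k :=
      Finset.sum_lt_sum (fun i _ => v.2.1 i) ⟨k, Finset.mem_univ k, hlt⟩
    have hv := v.2.2
    omega
  constructor
  intro z w
  apply Subtype.ext
  funext k
  rw [key z k, key w k]

/-- The penalty of a pair with a column of cap `0` vanishes. -/
theorem penB_dead {s : Fin n → ℕ} {ρ : ℕ} (x y : Fin n) (h : s x = 0 ∨ s y = 0)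
    (g : Box n s ρ → ℝ) : penB x y g = 0 := by
  unfold penB
  have hm : min (s x) (s y) = 0 := by
    rcases h with h | h <;> simp [h]
  rw [hm]
  simp

theorem avgRel_slice_dead {m : ℕ} {s : Fin (m + 1) → ℕ} {ρ : ℕ} (c : Fin (m + 1))
    (hc : s c = 0) (g : Box (m + 1) s ρ → ℝ) (hg : ∑ z, g z = 0) :
    avgRel (SliceRel c) g = fun _ => 0 := by
  funext z
  unfold avgRel
  have e : univ.filter (fun y : Box (m + 1) s ρ => SliceRel c z y) = univ := by
    refine Finset.filter_true_of_mem (fun y _ => ?_)
    unfold SliceRel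
    have h1 := z.2.1 c
    have h2 := y.2.1 c
    omega
  rw [e, hg, zero_div]

/-- At a column of cap `0` the slice-free step inequality holds. -/
theorem freeStep_dead {m : ℕ} {s : Fin (m + 1) → ℕ} {ρ : ℕ} (c : Fin (m + 1))
    (hc : s c = 0) (g : Box (m + 1) s ρ → ℝ) (hg : ∑ z, g z = 0) : FreeStep 1 c g := by
  unfold FreeStep
  have hav := avgRel_slice_dead c hc g hg
  have hb : betweenB c g = 0 := by
    unfold betweenB
    rw [hav, hg]
    simp
  have hfun : (fun z => g z - avgRel (SliceRel c) g z) = g := by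
    funext z
    rw [hav]
    simp
  rw [hb, hfun, mul_zero, add_zero, ← Finset.sum_add_distrib]
  refine Finset.sum_le_sum (fun x _ => ?_)
  rw [← Finset.sum_add_distrib]
  refine Finset.sum_le_sum (fun y _ => ?_)
  by_cases hxy : x ≠ y
  · by_cases hc' : x = c ∨ y = c
    · rw [if_pos hxy, if_pos ⟨hxy, hc'⟩, if_neg (by tauto)]
      have hp : penB x y g = 0 := by
        refine penB_dead x y ?_ g
        rcases hc' with h | h
        · left
          rw [h]
          exact hc
        · right
          rw [h]
          exact hc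
      rw [hp, add_zero]
      unfold QB
      exact Finset.sum_nonneg (fun z _ => sq_nonneg _)
    · rw [if_pos hxy, if_neg (by tauto), if_pos ⟨hxy, by tauto, by tauto⟩, zero_add]
  · rw [if_neg hxy, if_neg (by tauto), if_neg (by tauto), add_zero]

/-- A class with a column of cap `0` inherits the slack bound from the classes with one column
less. -/
theorem slack_dead {m : ℕ}
    (ih : ∀ (s : Fin m → ℕ) (ρ : ℕ) (f : Box m s ρ → ℝ), 2 * devB f ≤ slackB f)
    {s : Fin (m + 1) → ℕ} {ρ : ℕ} (c : Fin (m + 1)) (hc : s c = 0)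
    (f : Box (m + 1) s ρ → ℝ) : 2 * devB f ≤ slackB f := by
  have hstep := step_of_freeStep 1 c f (freeStep_dead c hc (centreB f) (sum_centreB f))
  have ih' : ∀ (s : Fin m → ℕ) (ρ : ℕ) (f : Box m s ρ → ℝ), 2 * 1 * devB f ≤ slackB f := by
    intro s ρ f
    have h := ih s ρ f
    linarith
  have h := step_aux (1 : ℝ) 1 ih' f c hstep
  rw [min_self] at h
  linarith

/-- The peeling step: the slack bound on the peeled class and the peeling inequality for `f`
give the slack bound for `f`. -/
theorem slack_peel_step {s : Fin n → ℕ} {ρ : ℕ} (a b : Fin n) (hab : a ≠ b) (ha : 1 ≤ s a)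
    (hb : 1 ≤ s b)
    (ih : ∀ f' : Box n (peelCap s a b) ρ → ℝ, 2 * devB f' ≤ slackB f')
    (f : Box n s (ρ + 1) → ℝ) (hf : ∑ z, f z = 0) (hP : PeelAt s ρ a b f) :
    2 * devB f ≤ slackB f := by
  obtain ⟨g, hg1, hg2, hg3⟩ := hP
  have hR := lineRel_equiv (s := s) (ρ := ρ + 1) a b
  have hR' := lineRel_equiv (s := peelCap s a b) (ρ := ρ) a b
  have hge : ∀ v, peelFun a b g v = g (peelEmb s ρ a b ha v) := fun v => peelFun_eq a b ha g v
  -- the sums of `g` and of its restriction vanish
  have hgsum : ∑ z, g z = 0 := by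
    rw [← TransferAux.sum_avgRel (LineRel a b) hR g, hg1,
      TransferAux.sum_avgRel (LineRel a b) hR f, hf]
  have hg'sum : ∑ v, peelFun a b g v = 0 := by
    have h := sum_peel s ρ a b hab ha hb g
    rw [hgsum, hg2, zero_add] at h
    rw [Finset.sum_congr rfl (fun v _ => hge v)]
    exact h.symm
  -- the induction hypothesis on the peeled class
  have hIH := ih (peelFun a b g)
  have hdev' : devB (peelFun a b g) = ∑ v, peelFun a b g v ^ 2 := by
    unfold devB
    rw [centreB_of_sum_zero _ hg'sum]
  rw [slack_split a b hab _ hg'sum, QB_eq a b (peelFun a b g), hdev'] at hIH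
  -- the optimal lift on the peeled class
  obtain ⟨w', hw1, hw2, hw3⟩ := exists_lift_box a b hab (peelFun a b g) hg'sum
  -- the lift on the class
  set w : Box n s (ρ + 1) → ℝ := fun z =>
    if levelB a b z = 0 then g z
    else ∑ v : Box n (peelCap s a b) ρ, (if peelEmb s ρ a b ha v = z then w' v else 0) with hw
  have hW1 : ∀ v, w (peelEmb s ρ a b ha v) = w' v := by
    intro v
    have hl : ¬ levelB a b (peelEmb s ρ a b ha v) = 0 := by
      rw [levelB_peelEmb s ρ a b hab ha hb v]
      omega
    rw [hw]
    beta_reduce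
    rw [if_neg hl]
    have e : ∀ u : Box n (peelCap s a b) ρ,
        (if peelEmb s ρ a b ha u = peelEmb s ρ a b ha v then w' u else 0)
          = if u = v then w' u else 0 := by
      intro u
      by_cases huv : u = v
      · rw [if_pos huv, if_pos (by rw [huv])]
      · rw [if_neg huv, if_neg (fun h => huv (peelEmb_inj s ρ a b ha h))]
    rw [Finset.sum_congr rfl (fun u _ => e u), Finset.sum_ite_eq' univ v w']
    simp
  have hW2 : ∀ z, levelB a b z = 0 → w z = g z := by
    intro z hz
    rw [hw]
    beta_reduce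
    rw [if_pos hz]
  have hW3 : ∑ z, w z ^ 2
      = ∑ z ∈ univ.filter (fun z : Box n s (ρ + 1) => levelB a b z = 0), g z ^ 2
        + ∑ v, w' v ^ 2 := by
    rw [sum_peel s ρ a b hab ha hb (fun z => w z ^ 2)]
    congr 1
    · refine Finset.sum_congr rfl (fun z hz => ?_)
      rw [hW2 z (Finset.mem_filter.1 hz).2]
    · refine Finset.sum_congr rfl (fun v _ => ?_)
      rw [hW1 v]
  have hW4 : ∀ t : ℕ, ∑ z ∈ univ.filter (fun z : Box n s (ρ + 1) => levelB a b z = t), w z
      = 0 := by
    intro t
    rw [Finset.sum_filter, sum_peel s ρ a b hab ha hb (fun z => if levelB a b z = t then w z else 0)]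
    rcases Nat.eq_zero_or_pos t with ht | ht
    · have e1 : ∑ z ∈ univ.filter (fun z : Box n s (ρ + 1) => levelB a b z = 0),
          (if levelB a b z = t then w z else 0) = 0 := by
        rw [← hg2]
        refine Finset.sum_congr rfl (fun z hz => ?_)
        have hz0 := (Finset.mem_filter.1 hz).2
        rw [if_pos (by rw [hz0, ht]), hW2 z hz0]
      have e2 : ∑ v : Box n (peelCap s a b) ρ,
          (if levelB a b (peelEmb s ρ a b ha v) = t then w (peelEmb s ρ a b ha v) else 0)
          = 0 := by
        refine Finset.sum_eq_zero (fun v _ => ?_)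
        rw [if_neg]
        rw [levelB_peelEmb s ρ a b hab ha hb v]
        omega
      rw [e1, e2, add_zero]
    · have e1 : ∑ z ∈ univ.filter (fun z : Box n s (ρ + 1) => levelB a b z = 0),
          (if levelB a b z = t then w z else 0) = 0 := by
        refine Finset.sum_eq_zero (fun z hz => ?_)
        have hz0 := (Finset.mem_filter.1 hz).2
        rw [if_neg]
        omega
      have e2 : ∑ v : Box n (peelCap s a b) ρ,
          (if levelB a b (peelEmb s ρ a b ha v) = t then w (peelEmb s ρ a b ha v) else 0)
          = ∑ v ∈ univ.filter (fun v : Box n (peelCap s a b) ρ => levelB a b v = t - 1),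
            w' v := by
        rw [Finset.sum_filter]
        refine Finset.sum_congr rfl (fun v _ => ?_)
        rw [levelB_peelEmb s ρ a b hab ha hb v, hW1 v]
        by_cases hv : levelB a b v = t - 1
        · rw [if_pos hv, if_pos (by omega)]
        · rw [if_neg hv, if_neg (by omega)]
      rw [e1, e2, hw1 (t - 1), add_zero]
  have hW5 : avgRel (LineRel a b) w = avgRel (LineRel a b) g := by
    funext z
    unfold avgRel
    congr 1
    rw [Finset.sum_filter, Finset.sum_filter,
      sum_peel s ρ a b hab ha hb (fun y => if LineRel a b z y then w y else 0),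
      sum_peel s ρ a b hab ha hb (fun y => if LineRel a b z y then g y else 0)]
    congr 1
    · refine Finset.sum_congr rfl (fun y hy => ?_)
      rw [hW2 y (Finset.mem_filter.1 hy).2]
    · by_cases hex : ∃ v0 : Box n (peelCap s a b) ρ, LineRel a b z (peelEmb s ρ a b ha v0)
      · obtain ⟨v0, hv0⟩ := hex
        have hiff : ∀ v : Box n (peelCap s a b) ρ,
            LineRel a b z (peelEmb s ρ a b ha v) ↔ LineRel a b v0 v := by
          intro v
          rw [← lineRel_peelEmb s ρ a b ha v0 v]
          exact ⟨fun h => hR.trans (hR.symm hv0) h, fun h => hR.trans hv0 h⟩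
        have hcl := congrFun hw2 v0
        unfold avgRel at hcl
        have hpos := card_class_pos hR' v0
        have hsum : ∑ v ∈ univ.filter (fun v : Box n (peelCap s a b) ρ => LineRel a b v0 v), w' v
            = ∑ v ∈ univ.filter (fun v : Box n (peelCap s a b) ρ => LineRel a b v0 v),
              peelFun a b g v := (div_left_inj' (ne_of_gt hpos)).1 hcl
        rw [Finset.sum_filter, Finset.sum_filter] at hsum
        have e1 : ∀ v : Box n (peelCap s a b) ρ,
            (if LineRel a b z (peelEmb s ρ a b ha v) then w (peelEmb s ρ a b ha v) else 0)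
              = if LineRel a b v0 v then w' v else 0 := by
          intro v
          by_cases hv : LineRel a b v0 v
          · rw [if_pos hv, if_pos ((hiff v).2 hv), hW1 v]
          · rw [if_neg hv, if_neg (fun h => hv ((hiff v).1 h))]
        have e2 : ∀ v : Box n (peelCap s a b) ρ,
            (if LineRel a b z (peelEmb s ρ a b ha v) then g (peelEmb s ρ a b ha v) else 0)
              = if LineRel a b v0 v then peelFun a b g v else 0 := by
          intro v
          by_cases hv : LineRel a b v0 v
          · rw [if_pos hv, if_pos ((hiff v).2 hv), hge v]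
          · rw [if_neg hv, if_neg (fun h => hv ((hiff v).1 h))]
        rw [Finset.sum_congr rfl (fun v _ => e1 v), Finset.sum_congr rfl (fun v _ => e2 v)]
        exact hsum
      · have e1 : ∀ v : Box n (peelCap s a b) ρ,
            (if LineRel a b z (peelEmb s ρ a b ha v) then w (peelEmb s ρ a b ha v) else 0)
              = 0 := fun v => if_neg (fun h => hex ⟨v, h⟩)
        have e2 : ∀ v : Box n (peelCap s a b) ρ,
            (if LineRel a b z (peelEmb s ρ a b ha v) then g (peelEmb s ρ a b ha v) else 0)
              = 0 := fun v => if_neg (fun h => hex ⟨v, h⟩)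
        rw [Finset.sum_congr rfl (fun v _ => e1 v), Finset.sum_congr rfl (fun v _ => e2 v)]
  -- the lift bounds the penalty of the pair on the class
  have hlift := penB_le_of_lift a b hab f hf w hW4 (hW5.trans hg1)
  have hdev : devB f = ∑ z, f z ^ 2 := by
    unfold devB
    rw [centreB_of_sum_zero f hf]
  rw [slack_split a b hab f hf, QB_eq a b f, hdev]
  rw [hW3, hw3] at hlift
  linarith

theorem devB_centreB {s : Fin n → ℕ} {ρ : ℕ} (f : Box n s ρ → ℝ) :
    devB (centreB f) = devB f := by
  unfold devB
  rw [centreB_of_sum_zero (centreB f) (sum_centreB f)]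

theorem slackB_centreB {s : Fin n → ℕ} {ρ : ℕ} (f : Box n s ρ → ℝ) :
    slackB (centreB f) = slackB f := by
  unfold slackB
  rw [centreB_of_sum_zero (centreB f) (sum_centreB f)]
  simp only [QB_centreB]

/-- The induction on `ρ` for classes with at least three columns. -/
theorem peel_slack_succ (h : PeelHyp) {m : ℕ} (hm : 3 ≤ m + 1)
    (ih : ∀ (s : Fin m → ℕ) (ρ : ℕ) (f : Box m s ρ → ℝ), 2 * devB f ≤ slackB f) :
    ∀ (ρ : ℕ) (s : Fin (m + 1) → ℕ) (f : Box (m + 1) s ρ → ℝ), 2 * devB f ≤ slackB f := by
  intro ρ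
  induction ρ with
  | zero =>
    intro s f
    exact slack_subsingleton (box_subsingleton_zero s) f
  | succ ρ ihρ =>
    intro s f
    by_cases hdead : ∃ c, s c = 0
    · obtain ⟨c, hc⟩ := hdead
      exact slack_dead ih c hc f
    · have hs : ∀ k, 1 ≤ s k := by
        intro k
        by_contra hk
        exact hdead ⟨k, by omega⟩
      rcases Nat.lt_or_ge (ρ + 1) (∑ k, s k) with hlt | hge
      · have hc := sum_centreB f
        obtain ⟨a, b, hab, hP⟩ := h (m + 1) hm s ρ hs hlt (centreB f) hc
        have key := slack_peel_step a b hab (hs a) (hs b)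
          (fun f' => ihρ (peelCap s a b) f') (centreB f) hc hP
        rw [devB_centreB, slackB_centreB] at key
        exact key
      · exact slack_subsingleton (box_subsingleton_full s (ρ + 1) hge) f

/-- Under the hook-peel hypothesis the slack of every class is at least twice the squared
deviation from the mean. -/
theorem peel_slack (h : PeelHyp) :
    ∀ (n : ℕ) (s : Fin n → ℕ) (ρ : ℕ) (f : Box n s ρ → ℝ), 2 * devB f ≤ slackB f := by
  intro n
  induction n with
  | zero =>
    intro s ρ f
    exact slack_subsingleton (box_subsingleton (by omega) s ρ) f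
  | succ m ih =>
    intro s ρ f
    rcases Nat.lt_or_ge (m + 1) 2 with h1 | h2
    · exact slack_subsingleton (box_subsingleton (by omega) s ρ) f
    · rcases Nat.eq_or_lt_of_le h2 with e2 | h3
      · obtain rfl : m = 1 := by omega
        rw [slack_two_dev]
      · exact peel_slack_succ h (by omega) ih ρ s f

/-- Conditional main theorem (hook-peel route): under the hook-peel hypothesis, for all
`m, n ≥ 2` and all margins the `2 x 2` heat-bath chain satisfies the Poincare inequality with
constant `δ / (m (m - 1) n (n - 1))` for every `0 < δ ≤ 2`, and its lazy version mixes within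
the corresponding time. -/
theorem main_peel (h : PeelHyp) {m n : ℕ} (hm : 2 ≤ m) (hn : 2 ≤ n)
    (r : Fin m → ℕ) (c : Fin n → ℕ) (δ : ℝ) (hδ0 : 0 < δ) (hδ2 : δ ≤ 2) :
    (∀ f : Omega r c → ℝ, ∑ X, f X = 0 →
      δ / ((m : ℝ) * (m - 1) * ((n : ℝ) * (n - 1))) * ∑ X, f X ^ 2
        ≤ (1 / 2 : ℝ) * ∑ X, ∑ Y, blockChain r c X Y * (f X - f Y) ^ 2) ∧
    ∀ (η : ℝ), 0 < η → ∀ t : ℕ,
      2 * ((m : ℝ) * (m - 1) * ((n : ℝ) * (n - 1))) / δ
        * ((m : ℝ) * ∑ j, Real.log ((c j : ℝ) + 1) + 2 * Real.log (1 / η)) ≤ t →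
      ∀ X : Omega r c,
        (1 / 2 : ℝ) * ∑ Y, |(((1 / 2 : ℝ) • (1 + blockChain r c)) ^ t) X Y
          - 1 / (Fintype.card (Omega r c) : ℝ)| ≤ η := by
  have hs : SurHypG (fun _ => 1) (fun k => 2 * (fun _ : ℕ => (1 : ℝ)) k) :=
    surHypG_of_slack (fun _ => 1) (fun k s ρ f => by
      have h1 := peel_slack h k s ρ f
      linarith)
  refine main_surG (fun _ => 1) (fun k => 2 * (fun _ : ℕ => (1 : ℝ)) k) hs
    (fun _ => le_refl _) hm hn r c δ hδ0 hδ2 ?_ ?_
  · show δ ≤ 2 * 1 + 2 * (1 - 1)
    linarith
  · show δ ≤ 2 * 1 + 2 * (1 - 1)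
    linarith

end Vale.Agent.H66.CT
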