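import Vale.Agent.H66.CT.PeelRed
import Vale.Agent.H25.CT.BoxDual

/-!
P328: the hook-peel hypothesis from the edge-average certificate (reduction only).

Setting of `PeelRed`: an ordered pair of distinct columns `a, b` of the class
`Box n s (ρ + 1)`; the peeled class `Box n (peelCap s a b) ρ` is the set of the edges of the
lines of the pair `a, b` (the point `w` of the peeled class is the edge between `w + e_a` and
`w + e_b`).  `edgeAvg a b h` is the average of `h` over the two ends of an edge.  For a function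
`g` on the peeled class, `hookVal a b f g z` is the value at the point `z` of the level `0`
that is forced by the line sums of `f`: the sum of `f` over the line of `z` minus the sum of `g`
over the edges of that line.

* `peelAt_of_ext`: if `g` has zero sum on the peeled class and the slack of `f` over the other
  pairs is at least twice the sum of the squares of the forced values plus the slack of `g`,
  then `PeelAt` holds for `f`.
* `SymPeelAt`: this inequality for the centred edge average of `f`.
* `JointPeelAt`: the joint inequality in `f` and in arbitrary line functions `u x y` of the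
  other pairs, with the dual functional `dualS` in place of the slack, the line functions being
  transported by the edge average as well.  By the duality of `Vale.Agent.H25.CT` it implies
  `SymPeelAt` for every function of zero sum.
* `peelHyp_of_joint`, `main_joint`: a pair with `JointPeelAt` in every class gives `PeelHyp`,
  hence the Poincare inequality and the mixing time bound of the `2 x 2` heat-bath chain.

WARNING (numerics of the team, thread P328, 14:05-14:10 UTC).  The two edge-average
hypotheses are FALSE on large classes with three capped columns: `JointPeelAt` fails for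
`n = 3`, `s = (9, 9, 9)`, `ρ + 1 = 13`, and `SymPeelAt` fails for some `f` when `n = 3`,
`s = (19, 19, 19)`, `ρ + 1 = 28` (exact rational counterexamples).  So `peelHyp_of_joint`,
`peelHyp_of_sym` and `main_joint` are implications from hypotheses that do not hold; they
must not be used as a route or quoted in a claim.  What stays usable is `peelAt_of_ext`: any
function `g` of zero sum on the peeled class with the displayed inequality gives `PeelAt`
(`PeelAt` itself, with its existential, is not affected).
-/

namespace Vale.Agent.H66.CT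

open Finset Vale.Agent.H90 Vale.Agent.H88.CT Vale.Agent.H91.CT Vale.Agent.H14.CT
  Vale.Agent.H2.CT Vale.Agent.H25.CT

variable {n : ℕ}

theorem peelEmb2_aux (s : Fin n → ℕ) (ρ : ℕ) (a b : Fin n) (hb : 1 ≤ s b)
    (z : Box n (peelCap s a b) ρ) :
    (∀ k, z.1 k + (if k = b then 1 else 0) ≤ s k) ∧
      ∑ k, (z.1 k + (if k = b then 1 else 0)) = ρ + 1 := by
  constructor
  · intro k
    have hk := z.2.1 k
    unfold peelCap at hk
    by_cases hkb : k = b
    · rw [if_pos hkb]
      rw [if_pos (Or.inr hkb)] at hk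
      rw [hkb] at hk ⊢
      omega
    · rw [if_neg hkb]
      by_cases hka : k = a
      · rw [if_pos (Or.inl hka)] at hk
        omega
      · rw [if_neg (by tauto)] at hk
        omega
  · rw [Finset.sum_add_distrib, z.2.2, Finset.sum_ite_eq' univ b (fun _ => 1)]
    simp

/-- The second embedding of the peeled class: the entry at `b` is raised by one. -/
def peelEmb2 (s : Fin n → ℕ) (ρ : ℕ) (a b : Fin n) (hb : 1 ≤ s b)
    (z : Box n (peelCap s a b) ρ) : Box n s (ρ + 1) :=
  ⟨fun k => z.1 k + (if k = b then 1 else 0), peelEmb2_aux s ρ a b hb z⟩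

theorem peelEmb2_val (s : Fin n → ℕ) (ρ : ℕ) (a b : Fin n) (hb : 1 ≤ s b)
    (z : Box n (peelCap s a b) ρ) (k : Fin n) :
    (peelEmb2 s ρ a b hb z).1 k = z.1 k + (if k = b then 1 else 0) := rfl

/-- The restriction of `g` to the peeled class along the second embedding (value `0` if the
shifted vector is not in the class). -/
noncomputable def peelFun2 (a b : Fin n) {s : Fin n → ℕ} {ρ : ℕ} (g : Box n s (ρ + 1) → ℝ) :
    Box n (peelCap s a b) ρ → ℝ :=
  fun z =>
    if h : (∀ k, z.1 k + (if k = b then 1 else 0) ≤ s k) ∧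
        ∑ k, (z.1 k + (if k = b then 1 else 0)) = ρ + 1
    then g ⟨fun k => z.1 k + (if k = b then 1 else 0), h⟩ else 0

theorem peelFun2_eq (a b : Fin n) {s : Fin n → ℕ} {ρ : ℕ} (hb : 1 ≤ s b)
    (g : Box n s (ρ + 1) → ℝ) (z : Box n (peelCap s a b) ρ) :
    peelFun2 a b g z = g (peelEmb2 s ρ a b hb z) := by
  unfold peelFun2
  rw [dif_pos (peelEmb2_aux s ρ a b hb z)]
  rfl

/-- The edge average: the point `w` of the peeled class is the edge between `w + e_a` and
`w + e_b`, and `edgeAvg a b h w` is the average of `h` over these two points. -/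
noncomputable def edgeAvg (a b : Fin n) {s : Fin n → ℕ} {ρ : ℕ} (h : Box n s (ρ + 1) → ℝ) :
    Box n (peelCap s a b) ρ → ℝ :=
  fun w => (peelFun a b h w + peelFun2 a b h w) / 2

/-- The edge average of a line function of any pair `x, y` is a line function of that pair on
the peeled class. -/
theorem edgeAvg_line (a b : Fin n) {s : Fin n → ℕ} {ρ : ℕ} (ha : 1 ≤ s a) (hb : 1 ≤ s b)
    (x y : Fin n) (u : Box n s (ρ + 1) → ℝ)
    (hu : ∀ z w, LineRel x y z w → u z = u w) (z w : Box n (peelCap s a b) ρ)
    (h : LineRel x y z w) : edgeAvg a b u z = edgeAvg a b u w := by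
  unfold edgeAvg
  rw [peelFun_eq a b ha u z, peelFun_eq a b ha u w, peelFun2_eq a b hb u z,
    peelFun2_eq a b hb u w]
  have h1 : LineRel x y (peelEmb s ρ a b ha z) (peelEmb s ρ a b ha w) := by
    intro k hkx hky
    rw [peelEmb_val, peelEmb_val, h k hkx hky]
  have h2 : LineRel x y (peelEmb2 s ρ a b hb z) (peelEmb2 s ρ a b hb w) := by
    intro k hkx hky
    rw [peelEmb2_val, peelEmb2_val, h k hkx hky]
  rw [hu _ _ h1, hu _ _ h2]

/-- The extension by zero of a function on the peeled class to the class. -/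
noncomputable def peelLift (a b : Fin n) {s : Fin n → ℕ} {ρ : ℕ}
    (g : Box n (peelCap s a b) ρ → ℝ) : Box n s (ρ + 1) → ℝ :=
  fun z =>
    if h : (∀ k, z.1 k - (if k = a then 1 else 0) ≤ peelCap s a b k) ∧
        ∑ k, (z.1 k - (if k = a then 1 else 0)) = ρ
    then g ⟨fun k => z.1 k - (if k = a then 1 else 0), h⟩ else 0

theorem peelLift_peelEmb (a b : Fin n) {s : Fin n → ℕ} {ρ : ℕ} (ha : 1 ≤ s a)
    (g : Box n (peelCap s a b) ρ → ℝ) (w : Box n (peelCap s a b) ρ) :
    peelLift a b g (peelEmb s ρ a b ha w) = g w := by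
  have hpt : ∀ k, (peelEmb s ρ a b ha w).1 k - (if k = a then 1 else 0) = w.1 k := by
    intro k
    rw [peelEmb_val]
    omega
  have hmem : (∀ k, (peelEmb s ρ a b ha w).1 k - (if k = a then 1 else 0) ≤ peelCap s a b k) ∧
      ∑ k, ((peelEmb s ρ a b ha w).1 k - (if k = a then 1 else 0)) = ρ := by
    constructor
    · intro k
      rw [hpt k]
      exact w.2.1 k
    · rw [Finset.sum_congr rfl (fun k _ => hpt k)]
      exact w.2.2
  unfold peelLift
  rw [dif_pos hmem]
  congr 1
  apply Subtype.ext
  funext k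
  exact hpt k

theorem peelLift_level0 (a b : Fin n) {s : Fin n → ℕ} {ρ : ℕ} (hab : a ≠ b) (hb : 1 ≤ s b)
    (g : Box n (peelCap s a b) ρ → ℝ) (z : Box n s (ρ + 1)) (hz : levelB a b z = 0) :
    peelLift a b g z = 0 := by
  unfold peelLift
  rw [dif_neg]
  rintro ⟨h1, h2⟩
  unfold levelB at hz
  by_cases hza : z.1 a = 0
  · have h3 : ∑ k, (z.1 k - (if k = a then 1 else 0)) = ∑ k, z.1 k := by
      refine Finset.sum_congr rfl (fun k _ => ?_)
      by_cases hka : k = a
      · rw [if_pos hka, hka, hza]
      · rw [if_neg hka]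
        rfl
    rw [h3, z.2.2] at h2
    omega
  · have h4 := h1 b
    unfold peelCap at h4
    rw [if_neg (Ne.symm hab), if_pos (Or.inr rfl)] at h4
    have h5 := z.2.1 b
    omega

/-- The value at the point `z` (of the level `0`) forced by the line sums of `f` when the
function on the peeled class is `g`: the sum of `f` over the line of `z` in the columns `a, b`
minus the sum of `g` over the points of the peeled class that agree with `z` outside `a, b`
(the edges of that line). -/
noncomputable def hookVal (a b : Fin n) {s : Fin n → ℕ} {ρ : ℕ} (f : Box n s (ρ + 1) → ℝ)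
    (g : Box n (peelCap s a b) ρ → ℝ) (z : Box n s (ρ + 1)) : ℝ :=
  ∑ z' ∈ univ.filter (fun z' : Box n s (ρ + 1) => LineRel a b z z'), f z'
    - ∑ w ∈ univ.filter (fun w : Box n (peelCap s a b) ρ => ∀ k, k ≠ a → k ≠ b → z.1 k = w.1 k),
        g w

/-- The sum of `g` over the edges of a line is the sum of its extension by zero over the
line. -/
theorem sum_edges_eq (a b : Fin n) {s : Fin n → ℕ} {ρ : ℕ} (hab : a ≠ b) (ha : 1 ≤ s a)
    (hb : 1 ≤ s b) (g : Box n (peelCap s a b) ρ → ℝ) (z : Box n s (ρ + 1)) :
    ∑ w ∈ univ.filter (fun w : Box n (peelCap s a b) ρ => ∀ k, k ≠ a → k ≠ b → z.1 k = w.1 k),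
        g w
      = ∑ z' ∈ univ.filter (fun z' : Box n s (ρ + 1) => LineRel a b z z'), peelLift a b g z' := by
  have h := sum_peel s ρ a b hab ha hb
    (fun z' => if LineRel a b z z' then peelLift a b g z' else 0)
  rw [Finset.sum_filter, Finset.sum_filter, h]
  have h0 : ∑ z' ∈ univ.filter (fun z' : Box n s (ρ + 1) => levelB a b z' = 0),
      (if LineRel a b z z' then peelLift a b g z' else 0) = 0 := by
    refine Finset.sum_eq_zero (fun z' hz' => ?_)
    rw [Finset.mem_filter] at hz'
    rw [peelLift_level0 a b hab hb g z' hz'.2]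
    simp
  rw [h0, zero_add]
  refine Finset.sum_congr rfl (fun w _ => ?_)
  rw [peelLift_peelEmb a b ha g w]
  have hiff : (∀ k, k ≠ a → k ≠ b → z.1 k = w.1 k) ↔ LineRel a b z (peelEmb s ρ a b ha w) := by
    unfold LineRel
    constructor
    · intro h1 k hka hkb
      rw [peelEmb_val, if_neg hka, h1 k hka hkb]
      rfl
    · intro h1 k hka hkb
      have h2 := h1 k hka hkb
      rw [peelEmb_val, if_neg hka] at h2
      exact h2
  by_cases hc : ∀ k, k ≠ a → k ≠ b → z.1 k = w.1 k
  · rw [if_pos hc, if_pos (hiff.1 hc)]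
  · rw [if_neg hc, if_neg (fun h1 => hc (hiff.2 h1))]

theorem hookVal_eq (a b : Fin n) {s : Fin n → ℕ} {ρ : ℕ} (hab : a ≠ b) (ha : 1 ≤ s a)
    (hb : 1 ≤ s b) (f : Box n s (ρ + 1) → ℝ) (g : Box n (peelCap s a b) ρ → ℝ)
    (z : Box n s (ρ + 1)) :
    hookVal a b f g z
      = ∑ z' ∈ univ.filter (fun z' : Box n s (ρ + 1) => LineRel a b z z'),
          (f z' - peelLift a b g z') := by
  unfold hookVal
  rw [sum_edges_eq a b hab ha hb g z, Finset.sum_sub_distrib]

theorem hookVal_const (a b : Fin n) {s : Fin n → ℕ} {ρ : ℕ} (f : Box n s (ρ + 1) → ℝ)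
    (g : Box n (peelCap s a b) ρ → ℝ) (z z' : Box n s (ρ + 1)) (h : LineRel a b z z') :
    hookVal a b f g z = hookVal a b f g z' := by
  have hR := lineRel_equiv (s := s) (ρ := ρ + 1) a b
  unfold hookVal
  have e1 : univ.filter (fun y : Box n s (ρ + 1) => LineRel a b z y)
      = univ.filter (fun y : Box n s (ρ + 1) => LineRel a b z' y) := by
    refine Finset.filter_congr (fun y _ => ?_)
    exact ⟨fun h1 => hR.trans (hR.symm h) h1, fun h1 => hR.trans h h1⟩
  have e2 : univ.filter (fun w : Box n (peelCap s a b) ρ => ∀ k, k ≠ a → k ≠ b → z.1 k = w.1 k)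
      = univ.filter
          (fun w : Box n (peelCap s a b) ρ => ∀ k, k ≠ a → k ≠ b → z'.1 k = w.1 k) := by
    refine Finset.filter_congr (fun w _ => ?_)
    constructor
    · intro h1 k hka hkb
      rw [← h k hka hkb]
      exact h1 k hka hkb
    · intro h1 k hka hkb
      rw [h k hka hkb]
      exact h1 k hka hkb
  rw [e1, e2]

/-- The peeling inequality from a function on the peeled class: if `g` has zero sum and the
slack of `f` over the other pairs is at least twice the sum of the squares of the forced values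
on the level `0` plus the slack of `g`, then `PeelAt` holds for `f`. -/
theorem peelAt_of_ext {s : Fin n → ℕ} {ρ : ℕ} (a b : Fin n) (hab : a ≠ b) (ha : 1 ≤ s a)
    (hb : 1 ≤ s b) (f : Box n s (ρ + 1) → ℝ) (hf : ∑ z, f z = 0)
    (g : Box n (peelCap s a b) ρ → ℝ) (hg : ∑ w, g w = 0)
    (hineq : 2 * ∑ z ∈ univ.filter (fun z : Box n s (ρ + 1) => levelB a b z = 0),
        hookVal a b f g z ^ 2 + slackOff a b g ≤ slackOff a b f) :
    PeelAt s ρ a b f := by
  have hR := lineRel_equiv (s := s) (ρ := ρ + 1) a b
  let G : Box n s (ρ + 1) → ℝ :=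
    fun z => if levelB a b z = 0 then hookVal a b f g z else peelLift a b g z
  have hG0 : ∀ z, levelB a b z = 0 → G z = hookVal a b f g z := by
    intro z hz
    show (if levelB a b z = 0 then hookVal a b f g z else peelLift a b g z) = _
    rw [if_pos hz]
  have hGe : ∀ w, G (peelEmb s ρ a b ha w) = g w := by
    intro w
    show (if levelB a b (peelEmb s ρ a b ha w) = 0 then hookVal a b f g (peelEmb s ρ a b ha w)
      else peelLift a b g (peelEmb s ρ a b ha w)) = _
    rw [if_neg (by rw [levelB_peelEmb s ρ a b hab ha hb w]; omega),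
      peelLift_peelEmb a b ha g w]
  have hGsplit : ∀ z, G z = peelLift a b g z
      + (if levelB a b z = 0 then hookVal a b f g z else 0) := by
    intro z
    show (if levelB a b z = 0 then hookVal a b f g z else peelLift a b g z) = _
    by_cases hz : levelB a b z = 0
    · rw [if_pos hz, if_pos hz, peelLift_level0 a b hab hb g z hz, zero_add]
    · rw [if_neg hz, if_neg hz, add_zero]
  -- line sums
  have hline : ∀ z, ∑ z' ∈ univ.filter (fun z' : Box n s (ρ + 1) => LineRel a b z z'), G z'
      = ∑ z' ∈ univ.filter (fun z' : Box n s (ρ + 1) => LineRel a b z z'), f z' := by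
    intro z
    have h1 : ∑ z' ∈ univ.filter (fun z' : Box n s (ρ + 1) => LineRel a b z z'),
        (if levelB a b z' = 0 then hookVal a b f g z' else 0) = hookVal a b f g z := by
      have h2 : ∀ z' ∈ univ.filter (fun z' : Box n s (ρ + 1) => LineRel a b z z'),
          (if levelB a b z' = 0 then hookVal a b f g z' else 0)
            = (fun t : ℕ => if t = 0 then hookVal a b f g z else 0) (levelB a b z') := by
        intro z' hz'
        rw [Finset.mem_filter] at hz'
        show _ = (if levelB a b z' = 0 then hookVal a b f g z else 0)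
        rw [hookVal_const a b f g z z' hz'.2]
      rw [Finset.sum_congr rfl h2,
        box_class_level a b hab z (fun t : ℕ => if t = 0 then hookVal a b f g z else 0)]
      rw [Finset.sum_ite_eq' (range (depthB a b z + 1)) 0 (fun _ => hookVal a b f g z)]
      rw [if_pos (by rw [Finset.mem_range]; omega)]
    rw [Finset.sum_congr rfl (fun z' _ => hGsplit z'), Finset.sum_add_distrib, h1,
      hookVal_eq a b hab ha hb f g z, Finset.sum_sub_distrib]
    ring
  have havg : avgRel (LineRel a b) G = avgRel (LineRel a b) f := by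
    funext z
    unfold avgRel
    rw [hline z]
  have hGsum : ∑ z, G z = 0 := by
    rw [← TransferAux.sum_avgRel (LineRel a b) hR G, havg,
      TransferAux.sum_avgRel (LineRel a b) hR f, hf]
  have hG0sum : ∑ z ∈ univ.filter (fun z : Box n s (ρ + 1) => levelB a b z = 0), G z = 0 := by
    have h := sum_peel s ρ a b hab ha hb G
    rw [hGsum, Finset.sum_congr rfl (fun w _ => hGe w), hg, add_zero] at h
    exact h.symm
  have hfun : peelFun a b G = g := by
    funext w
    rw [peelFun_eq a b ha G w, hGe w]
  refine ⟨G, havg, hG0sum, ?_⟩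
  rw [hfun]
  have hsq : ∑ z ∈ univ.filter (fun z : Box n s (ρ + 1) => levelB a b z = 0), G z ^ 2
      = ∑ z ∈ univ.filter (fun z : Box n s (ρ + 1) => levelB a b z = 0),
          hookVal a b f g z ^ 2 := by
    refine Finset.sum_congr rfl (fun z hz => ?_)
    rw [Finset.mem_filter] at hz
    rw [hG0 z hz.2]
  rw [hsq]
  exact hineq

/-- The edge-average peeling inequality for `f` (the f-only form): the function on the peeled
class is the centred edge average of `f`. -/
def SymPeelAt (s : Fin n → ℕ) (ρ : ℕ) (a b : Fin n) (f : Box n s (ρ + 1) → ℝ) : Prop :=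
  2 * ∑ z ∈ univ.filter (fun z : Box n s (ρ + 1) => levelB a b z = 0),
      hookVal a b f (centreB (edgeAvg a b f)) z ^ 2
    + slackOff a b (centreB (edgeAvg a b f)) ≤ slackOff a b f

theorem peelAt_of_sym {s : Fin n → ℕ} {ρ : ℕ} (a b : Fin n) (hab : a ≠ b) (ha : 1 ≤ s a)
    (hb : 1 ≤ s b) (f : Box n s (ρ + 1) → ℝ) (hf : ∑ z, f z = 0) (h : SymPeelAt s ρ a b f) :
    PeelAt s ρ a b f :=
  peelAt_of_ext a b hab ha hb f hf (centreB (edgeAvg a b f)) (sum_centreB _) h

/-- The dual functional of the ordered pair `x, y`: `|f - u|^2 - |Λ u|^2`, where `Λ u` is the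
average of `u` over the points of the same level. -/
noncomputable def dualS {s : Fin n → ℕ} {ρ : ℕ} (x y : Fin n) (f u : Box n s ρ → ℝ) : ℝ :=
  ∑ z, (f z - u z) ^ 2 - ∑ z, avgRel (LevRel (levelB x y)) u z ^ 2

/-- The joint edge-average inequality for the class `Box n s (ρ + 1)` and the ordered pair
`a, b`: for every `f` of zero sum and every family `u x y` of line functions, the sum over the
other ordered pairs of the dual functionals of `f` and `u x y` is at least twice the sum of the
squares of the forced values on the level `0` plus the sum of the dual functionals, on the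
peeled class, of the centred edge average of `f` and the edge averages of the `u x y`. -/
def JointPeelAt (s : Fin n → ℕ) (ρ : ℕ) (a b : Fin n) : Prop :=
  ∀ f : Box n s (ρ + 1) → ℝ, ∑ z, f z = 0 →
    ∀ u : Fin n → Fin n → Box n s (ρ + 1) → ℝ,
      (∀ x y z w, LineRel x y z w → u x y z = u x y w) →
      2 * ∑ z ∈ univ.filter (fun z : Box n s (ρ + 1) => levelB a b z = 0),
          hookVal a b f (centreB (edgeAvg a b f)) z ^ 2
        + ∑ x : Fin n, ∑ y : Fin n,
            (if x ≠ y ∧ ¬ (x = a ∧ y = b) ∧ ¬ (x = b ∧ y = a)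
              then dualS x y (centreB (edgeAvg a b f)) (edgeAvg a b (u x y)) else 0)
      ≤ ∑ x : Fin n, ∑ y : Fin n,
            (if x ≠ y ∧ ¬ (x = a ∧ y = b) ∧ ¬ (x = b ∧ y = a) then dualS x y f (u x y) else 0)

/-- The joint inequality implies the f-only inequality (duality for the slack of one pair). -/
theorem symPeelAt_of_joint {s : Fin n → ℕ} {ρ : ℕ} (a b : Fin n) (ha : 1 ≤ s a)
    (hb : 1 ≤ s b) (h : JointPeelAt s ρ a b) (f : Box n s (ρ + 1) → ℝ) (hf : ∑ z, f z = 0) :
    SymPeelAt s ρ a b f := by
  classical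
  have hex : ∀ x y : Fin n, x ≠ y →
      ∃ ψ : Box n s (ρ + 1) → ℝ, (∀ z w, LineRel x y z w → ψ z = ψ w) ∧
        QB x y f - penB x y f
          = ∑ z, (f z - ψ z) ^ 2 - ∑ z, avgRel (LevRel (levelB x y)) ψ z ^ 2 :=
    fun x y hxy => slack_pair_dual' x y hxy (levelB x y)
      (fun z G => box_class_level x y hxy z G) f hf
  let u : Fin n → Fin n → Box n s (ρ + 1) → ℝ :=
    fun x y => if hxy : x ≠ y then Classical.choose (hex x y hxy) else fun _ => 0
  have hu1 : ∀ x y z w, LineRel x y z w → u x y z = u x y w := by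
    intro x y z w hzw
    by_cases hxy : x ≠ y
    · show (if hxy : x ≠ y then Classical.choose (hex x y hxy) else fun _ => 0) z
        = (if hxy : x ≠ y then Classical.choose (hex x y hxy) else fun _ => 0) w
      rw [dif_pos hxy]
      exact (Classical.choose_spec (hex x y hxy)).1 z w hzw
    · show (if hxy : x ≠ y then Classical.choose (hex x y hxy) else fun _ => 0) z
        = (if hxy : x ≠ y then Classical.choose (hex x y hxy) else fun _ => 0) w
      rw [dif_neg hxy]
  have hu2 : ∀ x y, x ≠ y → QB x y f - penB x y f = dualS x y f (u x y) := by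
    intro x y hxy
    have e : u x y = Classical.choose (hex x y hxy) := by
      show (if hxy : x ≠ y then Classical.choose (hex x y hxy) else fun _ => 0) = _
      rw [dif_pos hxy]
    rw [e]
    exact (Classical.choose_spec (hex x y hxy)).2
  have hjoint := h f hf u hu1
  have hg0 : ∑ w, centreB (edgeAvg a b f) w = 0 := sum_centreB _
  have hF : slackOff a b f = ∑ x : Fin n, ∑ y : Fin n,
      (if x ≠ y ∧ ¬ (x = a ∧ y = b) ∧ ¬ (x = b ∧ y = a) then dualS x y f (u x y) else 0) := by
    unfold slackOff
    refine Finset.sum_congr rfl (fun x _ => Finset.sum_congr rfl (fun y _ => ?_))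
    by_cases hc : x ≠ y ∧ ¬ (x = a ∧ y = b) ∧ ¬ (x = b ∧ y = a)
    · rw [if_pos hc, if_pos hc, hu2 x y hc.1]
    · rw [if_neg hc, if_neg hc]
  have hG : slackOff a b (centreB (edgeAvg a b f)) ≤ ∑ x : Fin n, ∑ y : Fin n,
      (if x ≠ y ∧ ¬ (x = a ∧ y = b) ∧ ¬ (x = b ∧ y = a)
        then dualS x y (centreB (edgeAvg a b f)) (edgeAvg a b (u x y)) else 0) := by
    unfold slackOff
    refine Finset.sum_le_sum (fun x _ => Finset.sum_le_sum (fun y _ => ?_))
    by_cases hc : x ≠ y ∧ ¬ (x = a ∧ y = b) ∧ ¬ (x = b ∧ y = a)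
    · rw [if_pos hc, if_pos hc]
      exact slack_pair_le_dual' x y hc.1 (levelB x y)
        (fun z G => box_class_level x y hc.1 z G) (centreB (edgeAvg a b f)) hg0
        (edgeAvg a b (u x y)) (edgeAvg_line a b ha hb x y (u x y) (hu1 x y))
    · rw [if_neg hc, if_neg hc]
  unfold SymPeelAt
  rw [hF]
  linarith

/-- A pair with the joint edge-average inequality in every class with at least three columns,
no column of cap `0` and `0 < ρ + 1 < ∑ s` gives the hook-peel hypothesis. -/
theorem peelHyp_of_joint
    (h : ∀ (n : ℕ), 3 ≤ n → ∀ (s : Fin n → ℕ) (ρ : ℕ), (∀ k, 1 ≤ s k) → ρ + 1 < ∑ k, s k →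
      ∃ a b : Fin n, a ≠ b ∧ JointPeelAt s ρ a b) : PeelHyp := by
  intro n hn s ρ hs hρ f hf
  obtain ⟨a, b, hab, hJ⟩ := h n hn s ρ hs hρ
  exact ⟨a, b, hab, peelAt_of_sym a b hab (hs a) (hs b) f hf
    (symPeelAt_of_joint a b (hs a) (hs b) hJ f hf)⟩

/-- The same with the f-only inequality. -/
theorem peelHyp_of_sym
    (h : ∀ (n : ℕ), 3 ≤ n → ∀ (s : Fin n → ℕ) (ρ : ℕ), (∀ k, 1 ≤ s k) → ρ + 1 < ∑ k, s k →
      ∀ f : Box n s (ρ + 1) → ℝ, ∑ z, f z = 0 → ∃ a b : Fin n, a ≠ b ∧ SymPeelAt s ρ a b f) :
    PeelHyp := by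
  intro n hn s ρ hs hρ f hf
  obtain ⟨a, b, hab, hS⟩ := h n hn s ρ hs hρ f hf
  exact ⟨a, b, hab, peelAt_of_sym a b hab (hs a) (hs b) f hf hS⟩

/-- Conditional main theorem (edge-average route): if every class with at least three columns,
no column of cap `0` and `0 < ρ + 1 < ∑ s` has an ordered pair of distinct columns with the
joint edge-average inequality, then for all `m, n ≥ 2` and all margins the `2 x 2` heat-bath
chain satisfies the Poincare inequality with constant `δ / (m (m - 1) n (n - 1))` for every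
`0 < δ ≤ 2`, and its lazy version mixes within the corresponding time. -/
theorem main_joint
    (h : ∀ (n : ℕ), 3 ≤ n → ∀ (s : Fin n → ℕ) (ρ : ℕ), (∀ k, 1 ≤ s k) → ρ + 1 < ∑ k, s k →
      ∃ a b : Fin n, a ≠ b ∧ JointPeelAt s ρ a b)
    {m n : ℕ} (hm : 2 ≤ m) (hn : 2 ≤ n)
    (r : Fin m → ℕ) (c : Fin n → ℕ) (δ : ℝ) (hδ0 : 0 < δ) (hδ2 : δ ≤ 2) :
    (∀ f : Omega r c → ℝ, ∑ X, f X = 0 →
      δ / ((m : ℝ) * (m - 1) * ((n : ℝ) * (n - 1))) * ∑ X, f X ^ 2
        ≤ (1 / 2 : ℝ) * ∑ X, ∑ Y, blockChain r c X Y * (f X - f Y) ^ 2) ∧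
    ∀ (η : ℝ), 0 < η → ∀ t : ℕ,
      2 * ((m : ℝ) * (m - 1) * ((n : ℝ) * (n - 1))) / δ
        * ((m : ℝ) * ∑ j, Real.log ((c j : ℝ) + 1) + 2 * Real.log (1 / η)) ≤ t →
      ∀ X : Omega r c,
        (1 / 2 : ℝ) * ∑ Y, |(((1 / 2 : ℝ) • (1 + blockChain r c)) ^ t) X Y
          - 1 / (Fintype.card (Omega r c) : ℝ)| ≤ η :=
  main_peel (peelHyp_of_joint h) hm hn r c δ hδ0 hδ2

end Vale.Agent.H66.CT
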