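import Vale.Agent.H66.CT.PeelSym

/-!
P328: the induction on `ρ` from a monotone defect (reduction only).

The defect of a function `f` on a box-slice class is `slackB f - 2 * devB f` (slack over the
ordered pairs of columns minus twice the squared deviation from the mean); the surplus
inequality with the sharp constant says that it is nonnegative.

* `DefectStepHyp`: in every class `Box n s (ρ + 1)` with at least three columns, no column of
  cap `0` and `ρ + 1 < ∑ s`, for every `f` of zero sum there are a class `Box n s' ρ'` with the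
  same number of columns and `ρ' ≤ ρ` and a function `g` on it whose defect is at most the
  defect of `f`.
* `defect_slack`: under `DefectStepHyp` the defect is nonnegative on every class (induction on
  the number of columns and strong induction on `ρ`); `main_defect`: the Poincare inequality
  and the mixing time bound of the `2 x 2` heat-bath chain follow.
* `XMonoAt`, `XMonoHyp`: the special case where the smaller class is the peeled class of an
  ordered pair of columns and `g` is the edge average of `f` (the defect is monotone under the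
  edge average); `main_xmono`.

Nothing here is proved about the hypotheses themselves.

WARNING (numerical and exact-rational counterexamples posted in the project thread): the
edge-average forms are FALSE on large classes.  `XMonoAt` fails for a fixed pair on the class
with caps 40, 60, 80 and `ρ + 1 = 90`, and `XMonoHyp` (a pair depending on `f`) fails on
regular three-column classes with caps near `1000`.  So `XMonoHyp` is a false hypothesis and
`main_xmono` must not be cited; only `DefectStepHyp`, `defect_slack` and `main_defect` (any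
smaller class, any `g`) remain usable reductions.
-/

namespace Vale.Agent.H66.CT

open Finset Vale.Agent.H90 Vale.Agent.H88.CT Vale.Agent.H91.CT Vale.Agent.H14.CT
  Vale.Agent.H2.CT

variable {n : ℕ}

/-- The defect-step hypothesis: in every class `Box n s (ρ + 1)` with at least three columns,
no column of cap `0` and `ρ + 1 < ∑ s`, every function `f` of zero sum is dominated, in the
sense of the defect `slackB - 2 * devB`, by some function `g` on some class with the same
number of columns and a smaller `ρ`. -/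
def DefectStepHyp : Prop :=
  ∀ (n : ℕ), 3 ≤ n → ∀ (s : Fin n → ℕ) (ρ : ℕ), (∀ k, 1 ≤ s k) → ρ + 1 < ∑ k, s k →
    ∀ f : Box n s (ρ + 1) → ℝ, ∑ z, f z = 0 →
      ∃ (s' : Fin n → ℕ) (ρ' : ℕ), ρ' ≤ ρ ∧ ∃ g : Box n s' ρ' → ℝ,
        slackB g - 2 * devB g ≤ slackB f - 2 * devB f

/-- The strong induction on `ρ` for classes with at least three columns. -/
theorem defect_slack_succ (h : DefectStepHyp) {m : ℕ} (hm : 3 ≤ m + 1)
    (ih : ∀ (s : Fin m → ℕ) (ρ : ℕ) (f : Box m s ρ → ℝ), 2 * devB f ≤ slackB f) :
    ∀ (ρ : ℕ) (s : Fin (m + 1) → ℕ) (f : Box (m + 1) s ρ → ℝ), 2 * devB f ≤ slackB f := by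
  intro ρ
  induction ρ using Nat.strong_induction_on with
  | _ ρ ihρ =>
    intro s f
    rcases Nat.eq_zero_or_pos ρ with h0 | hpos
    · subst h0
      exact slack_subsingleton (box_subsingleton_zero s) f
    · obtain ⟨ρ₀, rfl⟩ : ∃ ρ₀, ρ = ρ₀ + 1 := ⟨ρ - 1, by omega⟩
      by_cases hdead : ∃ c, s c = 0
      · obtain ⟨c, hc⟩ := hdead
        exact slack_dead ih c hc f
      · have hs : ∀ k, 1 ≤ s k := by
          intro k
          by_contra hk
          exact hdead ⟨k, by omega⟩
        rcases Nat.lt_or_ge (ρ₀ + 1) (∑ k, s k) with hlt | hge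
        · have hc := sum_centreB f
          obtain ⟨s', ρ', hρ', g, hg⟩ := h (m + 1) hm s ρ₀ hs hlt (centreB f) hc
          have hIH := ihρ ρ' (by omega) s' g
          rw [devB_centreB, slackB_centreB] at hg
          linarith
        · exact slack_subsingleton (box_subsingleton_full s (ρ₀ + 1) hge) f

/-- Under the defect-step hypothesis the slack of every class is at least twice the squared
deviation from the mean. -/
theorem defect_slack (h : DefectStepHyp) :
    ∀ (n : ℕ) (s : Fin n → ℕ) (ρ : ℕ) (f : Box n s ρ → ℝ), 2 * devB f ≤ slackB f := by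
  intro n
  induction n with
  | zero =>
    intro s ρ f
    exact slack_subsingleton (box_subsingleton (by omega) s ρ) f
  | succ m ih =>
    intro s ρ f
    rcases Nat.lt_or_ge (m + 1) 2 with h1 | h2
    · exact slack_subsingleton (box_subsingleton (by omega) s ρ) f
    · rcases Nat.eq_or_lt_of_le h2 with e2 | h3
      · obtain rfl : m = 1 := by omega
        rw [slack_two_dev]
      · exact defect_slack_succ h (by omega) ih ρ s f

/-- Conditional main theorem (monotone defect): under the defect-step hypothesis, for all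
`m, n ≥ 2` and all margins the `2 x 2` heat-bath chain satisfies the Poincare inequality with
constant `δ / (m (m - 1) n (n - 1))` for every `0 < δ ≤ 2`, and its lazy version mixes within
the corresponding time. -/
theorem main_defect (h : DefectStepHyp) {m n : ℕ} (hm : 2 ≤ m) (hn : 2 ≤ n)
    (r : Fin m → ℕ) (c : Fin n → ℕ) (δ : ℝ) (hδ0 : 0 < δ) (hδ2 : δ ≤ 2) :
    (∀ f : Omega r c → ℝ, ∑ X, f X = 0 →
      δ / ((m : ℝ) * (m - 1) * ((n : ℝ) * (n - 1))) * ∑ X, f X ^ 2
        ≤ (1 / 2 : ℝ) * ∑ X, ∑ Y, blockChain r c X Y * (f X - f Y) ^ 2) ∧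
    ∀ (η : ℝ), 0 < η → ∀ t : ℕ,
      2 * ((m : ℝ) * (m - 1) * ((n : ℝ) * (n - 1))) / δ
        * ((m : ℝ) * ∑ j, Real.log ((c j : ℝ) + 1) + 2 * Real.log (1 / η)) ≤ t →
      ∀ X : Omega r c,
        (1 / 2 : ℝ) * ∑ Y, |(((1 / 2 : ℝ) • (1 + blockChain r c)) ^ t) X Y
          - 1 / (Fintype.card (Omega r c) : ℝ)| ≤ η := by
  have hs : SurHypG (fun _ => 1) (fun k => 2 * (fun _ : ℕ => (1 : ℝ)) k) :=
    surHypG_of_slack (fun _ => 1) (fun k s ρ f => by
      have h1 := defect_slack h k s ρ f
      linarith)
  refine main_surG (fun _ => 1) (fun k => 2 * (fun _ : ℕ => (1 : ℝ)) k) hs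
    (fun _ => le_refl _) hm hn r c δ hδ0 hδ2 ?_ ?_
  · show δ ≤ 2 * 1 + 2 * (1 - 1)
    linarith
  · show δ ≤ 2 * 1 + 2 * (1 - 1)
    linarith

/-- Monotonicity of the defect under the edge average for the class `Box n s (ρ + 1)`, the
ordered pair `a, b` and the function `f`: the defect of the edge average of `f` on the peeled
class is at most the defect of `f`. -/
def XMonoAt (s : Fin n → ℕ) (ρ : ℕ) (a b : Fin n) (f : Box n s (ρ + 1) → ℝ) : Prop :=
  slackB (edgeAvg a b f) - 2 * devB (edgeAvg a b f) ≤ slackB f - 2 * devB f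

/-- The edge-average form of the defect-step hypothesis: in every class with at least three
columns, no column of cap `0` and `ρ + 1 < ∑ s`, for every `f` of zero sum some ordered pair
of distinct columns has `XMonoAt`. -/
def XMonoHyp : Prop :=
  ∀ (n : ℕ), 3 ≤ n → ∀ (s : Fin n → ℕ) (ρ : ℕ), (∀ k, 1 ≤ s k) → ρ + 1 < ∑ k, s k →
    ∀ f : Box n s (ρ + 1) → ℝ, ∑ z, f z = 0 → ∃ a b : Fin n, a ≠ b ∧ XMonoAt s ρ a b f

theorem defectStep_of_xmono (h : XMonoHyp) : DefectStepHyp := by
  intro n hn s ρ hs hρ f hf
  obtain ⟨a, b, _, hX⟩ := h n hn s ρ hs hρ f hf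
  exact ⟨peelCap s a b, ρ, le_refl ρ, edgeAvg a b f, hX⟩

/-- Conditional main theorem (edge-average monotone defect). -/
theorem main_xmono (h : XMonoHyp) {m n : ℕ} (hm : 2 ≤ m) (hn : 2 ≤ n)
    (r : Fin m → ℕ) (c : Fin n → ℕ) (δ : ℝ) (hδ0 : 0 < δ) (hδ2 : δ ≤ 2) :
    (∀ f : Omega r c → ℝ, ∑ X, f X = 0 →
      δ / ((m : ℝ) * (m - 1) * ((n : ℝ) * (n - 1))) * ∑ X, f X ^ 2
        ≤ (1 / 2 : ℝ) * ∑ X, ∑ Y, blockChain r c X Y * (f X - f Y) ^ 2) ∧
    ∀ (η : ℝ), 0 < η → ∀ t : ℕ,
      2 * ((m : ℝ) * (m - 1) * ((n : ℝ) * (n - 1))) / δ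
        * ((m : ℝ) * ∑ j, Real.log ((c j : ℝ) + 1) + 2 * Real.log (1 / η)) ≤ t →
      ∀ X : Omega r c,
        (1 / 2 : ℝ) * ∑ Y, |(((1 / 2 : ℝ) • (1 + blockChain r c)) ^ t) X Y
          - 1 / (Fintype.card (Omega r c) : ℝ)| ≤ η :=
  main_defect (defectStep_of_xmono h) hm hn r c δ hδ0 hδ2

end Vale.Agent.H66.CT
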